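import Vale.Agent.P042.H438.DCa
import Vale.Agent.P042.H858.PushZ

/-! Second moments of polynomial functions of residues over arithmetic progressions. -/

namespace Vale.Agent.P042.H438

open Finset Vale.Agent.P042.H779.Ab

set_option linter.unusedSectionVars false

section
variable {ι : Type*} [Fintype ι] [DecidableEq ι] {V : ι → Type*} [∀ i, Fintype (V i)]
  [∀ i, DecidableEq (V i)]

/-- residue data: pairwise coprime moduli, residue maps onto the alphabets -/
structure Rs (q : ι → ℕ) (r : ∀ i, ℕ → V i) : Prop where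
  two : ∀ i, 2 ≤ q i
  cop : Pairwise fun i j => (q i).Coprime (q j)
  r_iff : ∀ i n m, r i n = r i m ↔ n ≡ m [MOD q i]
  card : ∀ i, Fintype.card (V i) = q i

/-- the uniform weights -/
noncomputable def uw (q : ι → ℕ) (i : ι) (_ : V i) : ℝ := 1 / (q i : ℝ)

variable {q : ι → ℕ} {r : ∀ i, ℕ → V i}

lemma Rs.pos (H : Rs q r) (i : ι) : 0 < q i := by have := H.two i; omega

lemma Rs.wt (H : Rs q r) : Wt (uw (V := V) q) where
  nonneg := fun i _ => by unfold uw; positivity
  sum := fun i => by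
    unfold uw
    rw [sum_const, card_univ, H.card, nsmul_eq_mul]
    have := H.pos i
    field_simp

/-- the point of an integer -/
def pnt (r : ∀ i, ℕ → V i) (n : ℕ) : ∀ i, V i := fun i => r i n

/-- exactly one point of a period in every residue class -/
lemma count_one (H : Rs q r) (R : Finset ι) {n0 D : ℕ} (hD : ∀ i ∈ R, D.Coprime (q i))
    (x : ∀ i, V i) :
    ((range (∏ i ∈ R, q i)).filter fun j => ∀ i ∈ R, r i (n0 + D * j) = x i).card = 1 := by
  classical
  obtain ⟨Q, hQ⟩ : ∃ Q, Q = ∏ i ∈ R, q i := ⟨_, rfl⟩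
  rw [← hQ]
  let φ : Fin Q → (∀ i : R, V i) := fun j i => r i (n0 + D * j)
  have hinj : Function.Injective φ := by
    intro a b hab
    have h1 : ∀ i ∈ R, (a : ℕ) ≡ b [MOD q i] := by
      intro i hi
      have h2 := congrFun hab ⟨i, hi⟩
      have h3 := (H.r_iff i _ _).1 h2
      have h4 : D * (a : ℕ) ≡ D * b [MOD q i] := Nat.ModEq.add_left_cancel' n0 h3
      exact Nat.ModEq.cancel_left_of_coprime (by
        rw [Nat.gcd_comm]; exact hD i hi) h4
    have h2 := (Vale.Agent.P042.H858.prod_modEq H.cop R a b).2 h1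
    rw [← hQ, Nat.mod_eq_of_lt a.2, Nat.mod_eq_of_lt b.2] at h2
    exact Fin.ext h2
  have hcard : Fintype.card (Fin Q) = Fintype.card (∀ i : R, V i) := by
    rw [Fintype.card_fin, Fintype.card_pi, hQ, ← prod_coe_sort R]
    exact prod_congr rfl fun i _ => (H.card i).symm
  have hbij := (Fintype.bijective_iff_injective_and_card φ).2 ⟨hinj, hcard⟩
  obtain ⟨j0, hj0⟩ := hbij.2 fun i : R => x i
  rw [card_eq_one]
  refine ⟨(j0 : ℕ), ?_⟩
  ext j
  simp only [mem_filter, mem_range, mem_singleton]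
  constructor
  · rintro ⟨hj, hjx⟩
    have : φ ⟨j, hj⟩ = φ j0 := by
      rw [hj0]
      funext i
      exact hjx i i.2
    have h3 := hinj this
    rw [← h3]
  · rintro rfl
    exact ⟨j0.2, fun i hi => congrFun hj0 ⟨i, hi⟩⟩

/-- expectation of an indicator of a cylinder -/
lemma ew_cyl (H : Rs q r) (R : Finset ι) (y : ∀ i, V i) :
    ew (uw q) (fun x => if ∀ i ∈ R, y i = x i then (1 : ℝ) else 0) = ∏ i ∈ R, (1 / (q i : ℝ)) := by
  classical
  induction R using Finset.induction_on with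
  | empty => simp [ew, pw_one H.wt]
  | insert i R hi ih =>
    rw [prod_insert hi, ← ih, ew_av1 H.wt i]
    have h1 : av1 (uw q) i (fun x => if ∀ j ∈ insert i R, y j = x j then (1 : ℝ) else 0)
        = fun x => 1 / (q i : ℝ) * if ∀ j ∈ R, y j = x j then (1 : ℝ) else 0 := by
      funext x
      unfold av1
      have h2 : ∀ a : V i, uw q i a *
          (if ∀ j ∈ insert i R, y j = (Function.update x i a) j then (1 : ℝ) else 0)
          = if y i = a then 1 / (q i : ℝ) * (if ∀ j ∈ R, y j = x j then (1 : ℝ) else 0) else 0 := by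
        intro a
        have h3 : (∀ j ∈ insert i R, y j = (Function.update x i a) j)
            ↔ (y i = a ∧ ∀ j ∈ R, y j = x j) := by
          constructor
          · intro h
            refine ⟨by simpa using h i (mem_insert_self i R), fun j hj => ?_⟩
            have hji : j ≠ i := fun h => hi (h ▸ hj)
            have := h j (mem_insert_of_mem hj)
            simpa [hji] using this
          · rintro ⟨h1, h2⟩ j hj
            rcases mem_insert.mp hj with rfl | hj
            · simpa using h1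
            · have hji : j ≠ i := fun h => hi (h ▸ hj)
              simpa [hji] using h2 j hj
        by_cases hya : y i = a
        · rw [if_pos hya]
          by_cases hR : ∀ j ∈ R, y j = x j
          · rw [if_pos (h3.2 ⟨hya, hR⟩), if_pos hR]; rfl
          · rw [if_neg fun h => hR (h3.1 h).2, if_neg hR]; simp
        · rw [if_neg hya, if_neg fun h => hya (h3.1 h).1]; simp
      rw [sum_congr rfl fun a _ => h2 a, sum_ite_eq, if_pos (mem_univ _)]
    rw [h1]
    unfold ew
    rw [mul_sum]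
    exact sum_congr rfl fun x _ => by ring

/-- one full period -/
lemma period (H : Rs q r) {R : Finset ι} {g : (∀ i, V i) → ℝ} (hg : Loc R g) {n0 D : ℕ}
    (hD : ∀ i ∈ R, D.Coprime (q i)) :
    ∑ j ∈ range (∏ i ∈ R, q i), g (pnt r (n0 + D * j)) = (∏ i ∈ R, (q i : ℝ)) * ew (uw q) g := by
  classical
  have hQ0 : (∏ i ∈ R, (q i : ℝ)) ≠ 0 := prod_ne_zero_iff.2 fun i _ => by
    have := H.pos i; positivity
  have h1 : ∀ n, g (pnt r n) = (∏ i ∈ R, (q i : ℝ)) *
      ew (uw q) (fun x => if ∀ i ∈ R, r i n = x i then g x else 0) := by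
    intro n
    have e1 : (fun x => if ∀ i ∈ R, r i n = x i then g x else 0)
        = fun x => g (pnt r n) * if ∀ i ∈ R, (pnt r n) i = x i then (1 : ℝ) else 0 := by
      funext x
      by_cases h : ∀ i ∈ R, r i n = x i
      · rw [if_pos h, if_pos (show ∀ i ∈ R, (pnt r n) i = x i from h), mul_one]
        exact (hg _ _ h).symm
      · rw [if_neg h, if_neg (show ¬ ∀ i ∈ R, (pnt r n) i = x i from h), mul_zero]
    rw [e1]
    have e2 : ew (uw q) (fun x => g (pnt r n) * if ∀ i ∈ R, (pnt r n) i = x i then (1 : ℝ) else 0)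
        = g (pnt r n) * ew (uw q) (fun x => if ∀ i ∈ R, (pnt r n) i = x i then (1 : ℝ) else 0) := by
      unfold ew
      rw [mul_sum]
      exact sum_congr rfl fun x _ => by ring
    rw [e2, ew_cyl H]
    rw [prod_div_distrib, prod_const_one]
    field_simp
  rw [sum_congr rfl fun j _ => h1 (n0 + D * j), ← mul_sum]
  congr 1
  unfold ew
  rw [sum_comm]
  refine sum_congr rfl fun x _ => ?_
  rw [← mul_sum, ← sum_filter]
  congr 1
  rw [sum_const, count_one H R hD x, one_smul]

/-- equidistribution with error -/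
lemma equi (H : Rs q r) {R : Finset ι} {g : (∀ i, V i) → ℝ} (hg : Loc R g) {c : ℝ}
    (hc : ∀ x, |g x| ≤ c) {D : ℕ} (hD : ∀ i ∈ R, D.Coprime (q i)) (N : ℕ) : ∀ n0 : ℕ,
    |∑ j ∈ range N, g (pnt r (n0 + D * j)) - N * ew (uw q) g| ≤ 2 * (∏ i ∈ R, (q i : ℝ)) * c := by
  have hew : |ew (uw q) g| ≤ c := by
    unfold ew
    calc |∑ x, pw (uw q) x * g x| ≤ ∑ x, |pw (uw q) x * g x| := abs_sum_le_sum_abs _ _
      _ ≤ ∑ x, pw (uw q) x * c := sum_le_sum fun x _ => by
          rw [abs_mul, abs_of_nonneg (pw_nn H.wt x)]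
          exact mul_le_mul_of_nonneg_left (hc x) (pw_nn H.wt x)
      _ = c := by rw [← sum_mul, pw_one H.wt, one_mul]
  have hc0 : 0 ≤ c := (abs_nonneg _).trans hew
  have hQpos : 0 < ∏ i ∈ R, q i := prod_pos fun i _ => H.pos i
  have hQR : (∏ i ∈ R, (q i : ℝ)) = ((∏ i ∈ R, q i : ℕ) : ℝ) := by push_cast; rfl
  induction N using Nat.strong_induction_on with
  | _ N ih =>
    intro n0
    rcases Nat.lt_or_ge N (∏ i ∈ R, q i) with hN | hN
    · have h1 : |∑ j ∈ range N, g (pnt r (n0 + D * j))| ≤ N * c := by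
        calc _ ≤ ∑ j ∈ range N, |g (pnt r (n0 + D * j))| := abs_sum_le_sum_abs _ _
          _ ≤ ∑ j ∈ range N, c := sum_le_sum fun j _ => hc _
          _ = N * c := by rw [sum_const, card_range, nsmul_eq_mul]
      have h2 : |(N : ℝ) * ew (uw q) g| ≤ N * c := by
        rw [abs_mul, abs_of_nonneg (Nat.cast_nonneg N)]
        exact mul_le_mul_of_nonneg_left hew (Nat.cast_nonneg N)
      have h3 : (N : ℝ) ≤ ∏ i ∈ R, (q i : ℝ) := by rw [hQR]; exact_mod_cast hN.le
      have h4 := mul_le_mul_of_nonneg_right h3 hc0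
      calc _ ≤ |∑ j ∈ range N, g (pnt r (n0 + D * j))| + |(N : ℝ) * ew (uw q) g| := abs_sub _ _
        _ ≤ _ := by linarith
    · obtain ⟨N', rfl⟩ := Nat.exists_eq_add_of_le hN
      rw [sum_range_add, period H hg hD]
      have h1 : ∑ x ∈ range N', g (pnt r (n0 + D * (∏ i ∈ R, q i + x)))
          = ∑ x ∈ range N', g (pnt r ((n0 + D * ∏ i ∈ R, q i) + D * x)) :=
        sum_congr rfl fun x _ => by congr 2; ring
      rw [h1]
      have h2 := ih N' (by omega) (n0 + D * ∏ i ∈ R, q i)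
      have h3 : (∏ i ∈ R, (q i : ℝ)) * ew (uw q) g +
          ∑ x ∈ range N', g (pnt r ((n0 + D * ∏ i ∈ R, q i) + D * x))
          - ((∏ i ∈ R, q i + N' : ℕ) : ℝ) * ew (uw q) g
          = ∑ x ∈ range N', g (pnt r ((n0 + D * ∏ i ∈ R, q i) + D * x)) - N' * ew (uw q) g := by
        rw [Nat.cast_add, ← hQR]; ring
      rw [h3]
      exact h2

/-- sup norm of a local function by its second moment -/
lemma sup_le (H : Rs q r) {C : Finset ι} {f : (∀ i, V i) → ℝ} (hf : Loc C f) (x : ∀ i, V i) :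
    f x ^ 2 ≤ (∏ i ∈ C, (q i : ℝ)) * ew (uw q) (fun y => f y ^ 2) := by
  classical
  have h1 : f x ^ 2 * ew (uw q) (fun y => if ∀ i ∈ C, x i = y i then (1 : ℝ) else 0)
      ≤ ew (uw q) (fun y => f y ^ 2) := by
    unfold ew
    rw [mul_sum]
    refine sum_le_sum fun y _ => ?_
    have hp := pw_nn H.wt y
    beta_reduce
    by_cases h : ∀ i ∈ C, x i = y i
    · rw [if_pos h, hf x y h]
      apply le_of_eq; ring
    · rw [if_neg h, mul_zero, mul_zero]
      exact mul_nonneg hp (sq_nonneg _)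
  rw [ew_cyl H, prod_div_distrib, prod_const_one] at h1
  have hQ0 : 0 < (∏ i ∈ C, (q i : ℝ)) := prod_pos fun i _ => by
    have := H.pos i; positivity
  rw [mul_one_div, div_le_iff₀ hQ0] at h1
  linarith

/-- the number of sets of product at most `Z` -/
lemma card_sets (H : Rs q r) (Z : ℕ) :
    ((univ : Finset (Finset ι)).filter fun C => ∏ i ∈ C, q i ≤ Z).card ≤ Z := by
  classical
  have hinj : Set.InjOn (fun C : Finset ι => ∏ i ∈ C, q i)
      ((univ : Finset (Finset ι)).filter fun C => ∏ i ∈ C, q i ≤ Z) := by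
    intro C _ C' _ h
    have key : ∀ C C' : Finset ι, ∏ i ∈ C, q i = ∏ i ∈ C', q i → C ⊆ C' := by
      intro C C' h i hi
      by_contra hi'
      have h1 : q i ∣ ∏ j ∈ C', q j := by rw [← h]; exact dvd_prod_of_mem q hi
      have h2 : (q i).Coprime (∏ j ∈ C', q j) := Nat.Coprime.prod_right fun j hj =>
        H.cop fun hij => hi' (hij ▸ hj)
      have h3 := Nat.Coprime.eq_one_of_dvd h2 h1
      have := H.two i
      omega
    exact subset_antisymm (key C C' h) (key C' C h.symm)
  calc _ = (((univ : Finset (Finset ι)).filter fun C => ∏ i ∈ C, q i ≤ Z).image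
        fun C : Finset ι => ∏ i ∈ C, q i).card := (card_image_of_injOn hinj).symm
    _ ≤ (Finset.Icc 1 Z).card := by
        refine card_le_card fun n hn => ?_
        obtain ⟨C, hC, rfl⟩ := mem_image.mp hn
        rw [mem_Icc]
        exact ⟨prod_pos fun i _ => H.pos i, (mem_filter.mp hC).2⟩
    _ = Z := by rw [Nat.card_Icc]; omega

/-- **second moments over a progression** -/
theorem dc2 (H : Rs q r) {Z : ℕ} {F : (∀ i, V i) → ℝ} (hF : Pol q Z F) {D : ℕ}
    (hD : ∀ i, D.Coprime (q i)) (n0 N : ℕ) :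
    ∑ j ∈ range N, F (pnt r (n0 + D * j)) ^ 2
      ≤ (N + 2 * (Z : ℝ) ^ 4) * ew (uw q) (fun x => F x ^ 2) := by
  classical
  obtain ⟨f, hf1, hf2, hf3, hf4⟩ := hF.centred H.wt (fun i => (H.pos i))
  obtain ⟨CC, hCC⟩ : ∃ CC : Finset (Finset ι),
    CC = (univ : Finset (Finset ι)).filter fun C => ∏ i ∈ C, q i ≤ Z := ⟨_, rfl⟩
  have hcard : (CC.card : ℝ) ≤ Z := by rw [hCC]; exact_mod_cast card_sets H Z
  have hmem : ∀ C ∈ CC, ∏ i ∈ C, q i ≤ Z := fun C hC => by
    rw [hCC] at hC; exact (mem_filter.mp hC).2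
  have hFs : ∀ x, F x = ∑ C ∈ CC, f C x := by
    intro x
    rw [hf4 x]
    symm
    refine sum_subset (subset_univ _) fun C _ hC => ?_
    have : f C = 0 := by
      by_contra h
      exact hC (by rw [hCC]; exact mem_filter.mpr ⟨mem_univ _, hf3 C h⟩)
    rw [this]; rfl
  obtain ⟨e, he⟩ : ∃ e : Finset ι → ℝ, e = fun C => ew (uw q) (fun x => f C x ^ 2) := ⟨_, rfl⟩
  have he0 : ∀ C, 0 ≤ e C := fun C => by
    rw [he]
    exact sum_nonneg fun x _ => mul_nonneg (pw_nn H.wt x) (sq_nonneg _)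
  have hsq : ∀ x, F x ^ 2 = ∑ C ∈ CC, ∑ C' ∈ CC, f C x * f C' x := by
    intro x
    rw [hFs x, sq, sum_mul_sum]
  -- second moment of `F`
  have hE : ew (uw q) (fun x => F x ^ 2) = ∑ C ∈ CC, e C := by
    have h1 : ew (uw q) (fun x => F x ^ 2)
        = ∑ C ∈ CC, ∑ C' ∈ CC, ew (uw q) (fun x => f C x * f C' x) := by
      unfold ew
      have h2 : ∀ x, pw (uw q) x * F x ^ 2
          = ∑ C ∈ CC, ∑ C' ∈ CC, pw (uw q) x * (f C x * f C' x) := by
        intro x
        rw [hsq x, mul_sum]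
        exact sum_congr rfl fun C _ => by rw [mul_sum]
      rw [sum_congr rfl fun x _ => h2 x, sum_comm]
      refine sum_congr rfl fun C _ => ?_
      rw [sum_comm]
    rw [h1]
    refine sum_congr rfl fun C hC => ?_
    rw [sum_eq_single C]
    · rw [he]
      beta_reduce
      congr 1
      funext x
      ring
    · intro C' _ hne
      exact ew_orth H.wt hne.symm (hf1 C) (hf1 C') (hf2 C) (hf2 C')
    · intro h; exact absurd hC h
  -- the sums over the progression
  have hpair : ∀ C ∈ CC, ∀ C' ∈ CC, ∑ j ∈ range N, f C (pnt r (n0 + D * j)) * f C' (pnt r (n0 + D * j))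
      ≤ N * ew (uw q) (fun x => f C x * f C' x) + 2 * (Z : ℝ) ^ 3 * (√(e C) * √(e C')) := by
    intro C hC C' hC'
    have hloc : Loc (C ∪ C') (fun x => f C x * f C' x) :=
      Loc.mul ((hf1 C).mono subset_union_left) ((hf1 C').mono subset_union_right)
    have hZC : ∀ C ∈ CC, (∏ i ∈ C, (q i : ℝ)) ≤ Z := fun C hC => by exact_mod_cast hmem C hC
    have hsup : ∀ C ∈ CC, ∀ x, |f C x| ≤ √(Z : ℝ) * √(e C) := by
      intro C hC x
      rw [← Real.sqrt_mul (Nat.cast_nonneg Z)]
      refine Real.abs_le_sqrt ?_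
      refine (sup_le H (hf1 C) x).trans ?_
      rw [he]
      exact mul_le_mul_of_nonneg_right (hZC C hC) (by rw [he] at he0; exact he0 C)
    have hbd : ∀ x, |f C x * f C' x| ≤ Z * (√(e C) * √(e C')) := by
      intro x
      rw [abs_mul]
      calc |f C x| * |f C' x| ≤ (√(Z : ℝ) * √(e C)) * (√(Z : ℝ) * √(e C')) :=
            mul_le_mul (hsup C hC x) (hsup C' hC' x) (abs_nonneg _) (by positivity)
        _ = (√(Z : ℝ) * √(Z : ℝ)) * (√(e C) * √(e C')) := by ring
        _ = _ := by rw [Real.mul_self_sqrt (Nat.cast_nonneg Z)]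
    have h1 := (abs_le.mp (equi H hloc hbd (fun i _ => hD i) N n0)).2
    have hQQ : (∏ i ∈ C ∪ C', (q i : ℝ)) ≤ (Z : ℝ) ^ 2 := by
      have h3 : ∏ i ∈ C ∪ C', q i ≤ (∏ i ∈ C, q i) * ∏ i ∈ C', q i := by
        rw [← union_sdiff_self_eq_union, prod_union disjoint_sdiff]
        exact Nat.mul_le_mul_left _ (prod_le_prod_of_subset_of_one_le' sdiff_subset
          fun i _ _ => H.pos i)
      have h4 := h3.trans (Nat.mul_le_mul (hmem C hC) (hmem C' hC'))
      rw [← sq] at h4
      exact_mod_cast h4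
    have h5 : 0 ≤ (Z : ℝ) * (√(e C) * √(e C')) := by positivity
    have h6 : 2 * (∏ i ∈ C ∪ C', (q i : ℝ)) * (Z * (√(e C) * √(e C')))
        ≤ 2 * (Z : ℝ) ^ 2 * (Z * (√(e C) * √(e C'))) :=
      mul_le_mul_of_nonneg_right (by linarith) h5
    calc _ ≤ N * ew (uw q) (fun x => f C x * f C' x)
          + 2 * (∏ i ∈ C ∪ C', (q i : ℝ)) * (Z * (√(e C) * √(e C'))) := by linarith
      _ ≤ _ := by
          have : 2 * (Z : ℝ) ^ 2 * (Z * (√(e C) * √(e C'))) = 2 * (Z : ℝ) ^ 3 * (√(e C) * √(e C')) := by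
            ring
          linarith
  have hcs : (∑ C ∈ CC, √(e C)) ^ 2 ≤ Z * ∑ C ∈ CC, e C := by
    have h1 := sq_sum_le_card_mul_sum_sq (s := CC) (f := fun C => √(e C))
    have h2 : ∑ C ∈ CC, √(e C) ^ 2 = ∑ C ∈ CC, e C :=
      sum_congr rfl fun C _ => Real.sq_sqrt (he0 C)
    rw [h2] at h1
    exact h1.trans (mul_le_mul_of_nonneg_right hcard (sum_nonneg fun C _ => he0 C))
  calc ∑ j ∈ range N, F (pnt r (n0 + D * j)) ^ 2
      = ∑ C ∈ CC, ∑ C' ∈ CC, ∑ j ∈ range N,
          f C (pnt r (n0 + D * j)) * f C' (pnt r (n0 + D * j)) := by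
        rw [sum_congr rfl fun j _ => hsq (pnt r (n0 + D * j)), sum_comm]
        exact sum_congr rfl fun C _ => by rw [sum_comm]
    _ ≤ ∑ C ∈ CC, ∑ C' ∈ CC, (N * ew (uw q) (fun x => f C x * f C' x)
          + 2 * (Z : ℝ) ^ 3 * (√(e C) * √(e C'))) :=
        sum_le_sum fun C hC => sum_le_sum fun C' hC' => hpair C hC C' hC'
    _ = N * (∑ C ∈ CC, e C) + 2 * (Z : ℝ) ^ 3 * (∑ C ∈ CC, √(e C)) ^ 2 := by
        simp only [sum_add_distrib]
        congr 1
        · rw [mul_sum]
          refine sum_congr rfl fun C hC => ?_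
          rw [sum_eq_single C]
          · rw [he]
            beta_reduce
            congr 2
            funext x
            ring
          · intro C' _ hne
            rw [ew_orth H.wt hne.symm (hf1 C) (hf1 C') (hf2 C) (hf2 C'), mul_zero]
          · intro h; exact absurd hC h
        · rw [sq, sum_mul_sum, mul_sum]
          exact sum_congr rfl fun C _ => by rw [mul_sum]
    _ ≤ N * (∑ C ∈ CC, e C) + 2 * (Z : ℝ) ^ 3 * (Z * ∑ C ∈ CC, e C) := by
        have : 0 ≤ 2 * (Z : ℝ) ^ 3 := by positivity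
        linarith [mul_le_mul_of_nonneg_left hcs this]
    _ = (N + 2 * (Z : ℝ) ^ 4) * ∑ C ∈ CC, e C := by ring
    _ = _ := by rw [hE]

end

end Vale.Agent.P042.H438
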