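import Vale.Agent.P042.H438.DCf
import Vale.Agent.P042.H461.LTrunc

/-! Density caps for even moments: the pins and the degrees measured by their length. -/

namespace Vale.Agent.P042.H438

open Finset Vale.Agent.P042.H779.Ab
open Vale.Agent.P042.H779.Ab.Ll (len)
open Vale.Agent.P042.H956 (pin)
open Vale.Agent.P042.H858 (pf pt iv)

set_option linter.unusedSectionVars false

section
variable {ι : Type*} [Fintype ι] [DecidableEq ι] {V : ι → Type*} [∀ i, Fintype (V i)]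
  [∀ i, DecidableEq (V i)] {q : ι → ℕ} {r : ∀ i, ℕ → V i}

lemma pol_card' {U : Finset ι} {Z : ℕ} (e : ℕ) (hZ : ∀ E ⊆ U, E.card = e → ∏ i ∈ E, q i ≤ Z)
    {T : Finset ι → (∀ i, V i) → ℝ} (hT : ∀ E, Loc E (T E)) :
    Pol q Z (fun x => ∑ E ∈ U.powersetCard e, T E x) := by
  classical
  refine ⟨fun E => if E ∈ U.powersetCard e then T E else 0, fun E => ?_, fun E hE => ?_,
    fun x => ?_⟩
  · beta_reduce
    split_ifs
    · exact hT E
    · intro _ _ _; rfl
  · beta_reduce at hE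
    split_ifs at hE with h
    · obtain ⟨h1, h2⟩ := mem_powersetCard.mp h
      exact hZ E h1 h2
    · exact absurd rfl hE
  · beta_reduce
    have h1 : ∀ E : Finset ι, (if E ∈ U.powersetCard e then T E else 0) x
        = if E ∈ U.powersetCard e then T E x else 0 := by
      intro E; split_ifs <;> rfl
    rw [sum_congr rfl fun E _ => h1 E, ← sum_filter]
    refine sum_congr ?_ fun _ _ => rfl
    ext E; simp

lemma exp_len (H : Rs q r) {ℓ : ι → ℝ} (hℓ : ∀ i, ℓ i = Real.log (q i)) (A : Finset ι) :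
    Real.exp (len ℓ A) = ((∏ i ∈ A, q i : ℕ) : ℝ) := by
  unfold len
  rw [Real.exp_sum, Nat.cast_prod]
  refine prod_congr rfl fun i _ => ?_
  rw [hℓ, Real.exp_log (by exact_mod_cast H.pos i)]

/-- **(DC)**, measured by the length: pins `A`, `k`-th power of sums over the `e`-subsets of `U` -/
theorem dcl0 (H : Rs q r) {nu : ℕ → ℝ} {A0 M : ℕ} {n0 D N : ℕ} {κ DD : ℝ}
    (hD0 : 0 < D) (hκ : 0 ≤ κ) (hD : ∀ i, D.Coprime (q i))
    (hsupp : ∀ i < M, nu (A0 + i) ≠ 0 → ∃ j < N, A0 + i = n0 + D * j)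
    (hcap : ∀ i < M, nu (A0 + i) ≤ κ) {ℓ : ι → ℝ} (hℓ : ∀ i, ℓ i = Real.log (q i)) {Λ : ℝ}
    (hN : 2 * Real.exp Λ ^ 4 ≤ N) (hDD : 2 * κ * N ≤ Real.exp DD)
    {A U : Finset ι} (hAU : Disjoint A U) (b : ∀ i, V i) {T : Finset ι → (∀ i, V i) → ℝ}
    (hT : ∀ E, Loc E (T E)) {e k : ℕ} (hk : 1 ≤ k ∨ len ℓ A ≤ Λ)
    (hE : ∀ E ⊆ U, E.card = e → len ℓ A + k * len ℓ E ≤ Λ) :
    ∑ x, pin (uw q) (pf r nu A0 M) A b x * (∑ E ∈ U.powersetCard e, T E x) ^ (2 * k)
      ≤ Real.exp DD * ∑ x, pw (uw q) x * (∑ E ∈ U.powersetCard e, T E x) ^ (2 * k) := by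
  classical
  have hE0 : 0 ≤ ∑ x, pw (uw q) x * (∑ E ∈ U.powersetCard e, T E x) ^ (2 * k) :=
    sum_nonneg fun x _ => mul_nonneg (pw_nn H.wt x) (by
      rw [pow_mul]; exact pow_nonneg (sq_nonneg _) _)
  by_cases hne : (U.powersetCard e).Nonempty
  · obtain ⟨E1, hE1, hmax⟩ := exists_max_image (U.powersetCard e) (fun E => ∏ i ∈ E, q i) hne
    obtain ⟨h1, h2⟩ := mem_powersetCard.mp hE1
    have hpol : Pol q (∏ i ∈ E1, q i) (fun x => ∑ E ∈ U.powersetCard e, T E x) :=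
      pol_card' e (fun E h3 h4 => hmax E (mem_powersetCard.mpr ⟨h3, h4⟩)) hT
    have hind : ∀ i ∈ A, Indep i (fun x => ∑ E ∈ U.powersetCard e, T E x) := by
      intro i hi x a
      beta_reduce
      refine sum_congr rfl fun E hE => ?_
      have hiE : i ∉ E := fun h => disjoint_left.mp hAU hi ((mem_powersetCard.mp hE).1 h)
      exact (hT E).indep hiE x a
    have h3 := dc H hD0 hκ hD hsupp hcap A b hpol hind k
    beta_reduce at h3
    refine h3.trans (mul_le_mul_of_nonneg_right ?_ hE0)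
    have h4 : (((∏ i ∈ A, q i) * (∏ i ∈ E1, q i) ^ k : ℕ) : ℝ) ≤ Real.exp Λ := by
      have h5 := hE E1 h1 h2
      calc (((∏ i ∈ A, q i) * (∏ i ∈ E1, q i) ^ k : ℕ) : ℝ)
          = Real.exp (len ℓ A + k * len ℓ E1) := by
            rw [Real.exp_add, exp_len H hℓ, Real.exp_nat_mul, exp_len H hℓ]
            push_cast
            ring
        _ ≤ Real.exp Λ := Real.exp_le_exp.2 h5
    have h6 : 2 * (((∏ i ∈ A, q i) * (∏ i ∈ E1, q i) ^ k : ℕ) : ℝ) ^ 4 ≤ N := by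
      refine le_trans ?_ hN
      have := pow_le_pow_left₀ (Nat.cast_nonneg _) h4 4
      linarith
    calc κ * (N + 2 * (((∏ i ∈ A, q i) * (∏ i ∈ E1, q i) ^ k : ℕ) : ℝ) ^ 4)
        ≤ κ * (N + N) := mul_le_mul_of_nonneg_left (by linarith) hκ
      _ = 2 * κ * N := by ring
      _ ≤ _ := hDD
  · rw [not_nonempty_iff_eq_empty] at hne
    rw [hne] at hE0 ⊢
    simp only [sum_empty] at hE0 ⊢
    rcases hk with hk | hk
    · have : 2 * k ≠ 0 := by omega
      simp [this]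
    · -- constants
      have hpol : Pol q 1 (fun _ : ∀ i, V i => (0 : ℝ)) :=
        Pol.of_loc (E := ∅) (by simp) fun _ _ _ => rfl
      have h3 := dc H hD0 hκ hD hsupp hcap A b hpol (fun i _ x a => rfl) k
      beta_reduce at h3
      refine h3.trans (mul_le_mul_of_nonneg_right ?_ hE0)
      have h4 : (((∏ i ∈ A, q i) * 1 ^ k : ℕ) : ℝ) ≤ Real.exp Λ := by
        rw [one_pow, mul_one, ← exp_len H hℓ]
        exact Real.exp_le_exp.2 hk
      have h6 : 2 * (((∏ i ∈ A, q i) * 1 ^ k : ℕ) : ℝ) ^ 4 ≤ N := by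
        refine le_trans ?_ hN
        have := pow_le_pow_left₀ (Nat.cast_nonneg _) h4 4
        linarith
      calc κ * (N + 2 * (((∏ i ∈ A, q i) * 1 ^ k : ℕ) : ℝ) ^ 4)
          ≤ κ * (N + N) := mul_le_mul_of_nonneg_left (by linarith) hκ
        _ = 2 * κ * N := by ring
        _ ≤ _ := hDD

end

end Vale.Agent.P042.H438
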