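import Vale.Agent.P042.H779.MuBase

/-! Polynomial functions on a finite product space: second moments, centred decomposition. -/

namespace Vale.Agent.P042.H438

open Finset Vale.Agent.P042.H779.Ab

set_option linter.unusedSectionVars false

section
variable {ι : Type*} [Fintype ι] [DecidableEq ι] {V : ι → Type*} [∀ i, Fintype (V i)]
  [∀ i, DecidableEq (V i)]

/-- product probability weights -/
structure Wt (w : ∀ i, V i → ℝ) : Prop where
  nonneg : ∀ i a, 0 ≤ w i a
  sum : ∀ i, ∑ a, w i a = 1

variable {w : ∀ i, V i → ℝ}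

lemma Wt.fam (H : Wt w) : Fam w (fun _ _ => 1) (fun _ => True) where
  w_nonneg := H.nonneg
  w_sum := H.sum
  g_nonneg := fun _ _ => zero_le_one
  g_empty := fun _ => rfl
  g_upd := fun _ _ _ _ _ => rfl
  g_avg := fun R i _ _ x => by simp [H.sum]
  g_pos := fun _ _ _ _ _ _ => zero_lt_one
  ok_down := fun _ _ _ _ => trivial

/-- expectation in the product space -/
noncomputable def ew (w : ∀ i, V i → ℝ) (F : (∀ i, V i) → ℝ) : ℝ := ∑ x, pw w x * F x

/-- average over one coordinate -/
noncomputable def av1 (w : ∀ i, V i → ℝ) (i : ι) (F : (∀ i, V i) → ℝ) (x : ∀ i, V i) : ℝ :=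
  ∑ a, w i a * F (Function.update x i a)

lemma ew_av1 (H : Wt w) (i : ι) (F : (∀ i, V i) → ℝ) : ew w F = ew w (av1 w i F) :=
  pw_avg H.fam i F

lemma pw_nn (H : Wt w) (x : ∀ i, V i) : 0 ≤ pw w x := pw_nonneg H.fam x

lemma pw_one (H : Wt w) : ∑ x, pw w x = 1 := pw_sum H.fam

lemma av1_av1 (H : Wt w) (i : ι) (F : (∀ i, V i) → ℝ) : av1 w i (av1 w i F) = av1 w i F := by
  funext x
  unfold av1
  have h : ∀ a, w i a * ∑ b, w i b * F (Function.update (Function.update x i a) i b)
      = w i a * ∑ b, w i b * F (Function.update x i b) := by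
    intro a
    simp only [Function.update_idem]
  rw [sum_congr rfl fun a _ => h a, ← sum_mul, H.sum, one_mul]

lemma av1_comm (i j : ι) (F : (∀ i, V i) → ℝ) : av1 w i (av1 w j F) = av1 w j (av1 w i F) := by
  by_cases hij : i = j
  · subst hij; rfl
  funext x
  unfold av1
  simp only [mul_sum]
  rw [sum_comm]
  refine sum_congr rfl fun b _ => sum_congr rfl fun a _ => ?_
  rw [Function.update_comm hij]
  ring

lemma av1_loc_not (H : Wt w) {R : Finset ι} {F : (∀ i, V i) → ℝ} (hF : Loc R F) {i : ι}
    (hi : i ∉ R) : av1 w i F = F := by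
  funext x
  unfold av1
  have h : ∀ a, F (Function.update x i a) = F x := fun a => hF.indep hi x a
  simp only [h]
  rw [← sum_mul, H.sum, one_mul]

lemma loc_av1 {R : Finset ι} {F : (∀ i, V i) → ℝ} (hF : Loc R F) (i : ι) :
    Loc (R.erase i) (av1 w i F) := by
  intro x y hxy
  unfold av1
  refine sum_congr rfl fun a _ => ?_
  congr 1
  refine hF _ _ fun j hj => ?_
  by_cases hji : j = i
  · subst hji; simp
  · rw [Function.update_of_ne hji, Function.update_of_ne hji]
    exact hxy j (mem_erase.mpr ⟨hji, hj⟩)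

lemma Loc.add' {P : Finset ι} {F G : (∀ i, V i) → ℝ} (hF : Loc P F) (hG : Loc P G) :
    Loc P (fun x => F x + G x) := fun x y hxy => by
  beta_reduce; rw [hF x y hxy, hG x y hxy]

lemma Loc.sub' {P : Finset ι} {F G : (∀ i, V i) → ℝ} (hF : Loc P F) (hG : Loc P G) :
    Loc P (fun x => F x - G x) := fun x y hxy => by
  beta_reduce; rw [hF x y hxy, hG x y hxy]

/-- centred decomposition of a local function -/
lemma decomp (H : Wt w) (E : Finset ι) : ∀ (B : Finset ι), Disjoint E B →
    ∀ F : (∀ i, V i) → ℝ, Loc (E ∪ B) F → (∀ i ∈ B, av1 w i F = 0) →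
    ∃ f : Finset ι → (∀ i, V i) → ℝ,
      (∀ C ⊆ E, Loc (C ∪ B) (f C) ∧ ∀ i ∈ C ∪ B, av1 w i (f C) = 0) ∧
      ∀ x, F x = ∑ C ∈ E.powerset, f C x := by
  induction E using Finset.induction_on with
  | empty =>
    intro B _ F hF hc
    refine ⟨fun _ => F, fun C hC => ?_, fun x => by simp⟩
    have : C = ∅ := subset_empty.mp hC
    subst this
    exact ⟨hF, by simpa using hc⟩
  | insert i E hi ih =>
    intro B hd F hF hc
    have hiB : i ∉ B := (disjoint_insert_left.mp hd).1
    have hEB : Disjoint E B := (disjoint_insert_left.mp hd).2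
    have hE1 : (insert i E ∪ B).erase i = E ∪ B := by
      ext j
      simp only [mem_erase, mem_union, mem_insert]
      constructor
      · rintro ⟨h1, (h2 | h2) | h2⟩
        · exact absurd h2 h1
        · exact Or.inl h2
        · exact Or.inr h2
      · rintro (h | h)
        · exact ⟨fun hji => hi (hji ▸ h), Or.inl (Or.inr h)⟩
        · exact ⟨fun hji => hiB (hji ▸ h), Or.inr h⟩
    -- the average over `i`
    have h1 : Loc (E ∪ B) (av1 w i F) := by
      have := loc_av1 (w := w) hF i
      rwa [hE1] at this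
    have h1c : ∀ j ∈ B, av1 w j (av1 w i F) = 0 := by
      intro j hj
      rw [av1_comm, hc j hj]
      funext x
      simp [av1]
    obtain ⟨f1, hf1, hs1⟩ := ih B hEB _ h1 h1c
    -- the centred rest
    have h2 : Loc (E ∪ insert i B) (fun x => F x - av1 w i F x) := by
      have hsub : E ∪ insert i B = insert i E ∪ B := by
        ext j; simp only [mem_union, mem_insert]; tauto
      rw [hsub]
      refine Loc.sub' hF ((loc_av1 (w := w) hF i).mono (erase_subset _ _))
    have hsubav : ∀ j (F G : (∀ i, V i) → ℝ), av1 w j (fun x => F x - G x)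
        = fun x => av1 w j F x - av1 w j G x := by
      intro j F G
      funext x
      unfold av1
      rw [← sum_sub_distrib]
      exact sum_congr rfl fun a _ => by ring
    have h2c : ∀ j ∈ insert i B, av1 w j (fun x => F x - av1 w i F x) = 0 := by
      intro j hj
      rw [hsubav]
      funext x
      rcases mem_insert.mp hj with rfl | hj
      · rw [av1_av1 H]; simp
      · rw [av1_comm, hc j hj]
        simp [av1]
    have hEiB : Disjoint E (insert i B) := by
      rw [disjoint_insert_right]; exact ⟨hi, hEB⟩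
    obtain ⟨f2, hf2, hs2⟩ := ih (insert i B) hEiB _ h2 h2c
    refine ⟨fun C => if i ∈ C then f2 (C.erase i) else f1 C, fun C hC => ?_, fun x => ?_⟩
    · by_cases hiC : i ∈ C
      · simp only [if_pos hiC]
        have hC2 : C.erase i ⊆ E := fun j hj => by
          obtain ⟨hj1, hj2⟩ := mem_erase.mp hj
          rcases mem_insert.mp (hC hj2) with h | h
          · exact absurd h hj1
          · exact h
        have h3 := hf2 _ hC2
        have h4 : C.erase i ∪ insert i B = C ∪ B := by
          ext j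
          simp only [mem_union, mem_erase, mem_insert]
          constructor
          · rintro (⟨_, h⟩ | h | h)
            · exact Or.inl h
            · rw [h]; exact Or.inl hiC
            · exact Or.inr h
          · rintro (h | h)
            · by_cases hji : j = i
              · exact Or.inr (Or.inl hji)
              · exact Or.inl ⟨hji, h⟩
            · exact Or.inr (Or.inr h)
        rwa [h4] at h3
      · simp only [if_neg hiC]
        have hC2 : C ⊆ E := fun j hj => by
          rcases mem_insert.mp (hC hj) with h | h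
          · exact absurd (h ▸ hj) hiC
          · exact h
        exact hf1 _ hC2
    · rw [powerset_insert, sum_union, sum_image]
      · have e1 : ∑ C ∈ E.powerset, (if i ∈ C then f2 (C.erase i) else f1 C) x
            = ∑ C ∈ E.powerset, f1 C x := by
          refine sum_congr rfl fun C hC => ?_
          rw [if_neg fun hc => hi (mem_powerset.mp hC hc)]
        have e2 : ∑ C ∈ E.powerset,
            (if i ∈ insert i C then f2 ((insert i C).erase i) else f1 (insert i C)) x
            = ∑ C ∈ E.powerset, f2 C x := by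
          refine sum_congr rfl fun C hC => ?_
          rw [if_pos (mem_insert_self i C), erase_insert fun hc => hi (mem_powerset.mp hC hc)]
        rw [e1, e2, ← hs1 x, ← hs2 x]; ring
      · intro A hA B' hB' hAB
        have hA' : i ∉ A := fun hc => hi (mem_powerset.mp hA hc)
        have hB2 : i ∉ B' := fun hc => hi (mem_powerset.mp hB' hc)
        rw [← erase_insert hA', ← erase_insert hB2, hAB]
      · rw [disjoint_left]
        intro A hA hA2
        obtain ⟨B', _, rfl⟩ := mem_image.mp hA2
        exact hi (mem_powerset.mp hA (mem_insert_self i B'))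

/-- `F` is a sum of functions local on sets of product at most `Z` -/
def Pol (q : ι → ℕ) (Z : ℕ) (F : (∀ i, V i) → ℝ) : Prop :=
  ∃ T : Finset ι → (∀ i, V i) → ℝ, (∀ E, Loc E (T E)) ∧ (∀ E, T E ≠ 0 → ∏ i ∈ E, q i ≤ Z) ∧
    ∀ x, F x = ∑ E, T E x

lemma Pol.mul {q : ι → ℕ} (hq : ∀ i, 1 ≤ q i) {Z Z' : ℕ} {F G : (∀ i, V i) → ℝ} (hF : Pol q Z F)
    (hG : Pol q Z' G) : Pol q (Z * Z') (fun x => F x * G x) := by
  obtain ⟨T, hT1, hT2, hT3⟩ := hF
  obtain ⟨T', hT1', hT2', hT3'⟩ := hG
  refine ⟨fun K x => ∑ p : Finset ι × Finset ι with p.1 ∪ p.2 = K, T p.1 x * T' p.2 x,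
    fun K => ?_, fun K hK => ?_, fun x => ?_⟩
  · intro x y hxy
    refine sum_congr rfl fun p hp => ?_
    have hpK := (mem_filter.mp hp).2
    rw [hT1 p.1 x y fun i hi => hxy i (hpK ▸ mem_union_left _ hi),
      hT1' p.2 x y fun i hi => hxy i (hpK ▸ mem_union_right _ hi)]
  · by_contra hlt
    apply hK
    funext x
    refine sum_eq_zero fun p hp => ?_
    have hpK := (mem_filter.mp hp).2
    by_cases h1 : T p.1 = 0
    · rw [h1]; simp
    by_cases h2 : T' p.2 = 0
    · rw [h2]; simp
    exfalso
    apply hlt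
    have h3 : ∏ i ∈ p.1 ∪ p.2, q i ≤ (∏ i ∈ p.1, q i) * ∏ i ∈ p.2, q i := by
      rw [← union_sdiff_self_eq_union, prod_union disjoint_sdiff]
      exact Nat.mul_le_mul_left _ (prod_le_prod_of_subset_of_one_le' sdiff_subset
        fun i _ _ => hq i)
    rw [← hpK]
    exact h3.trans (Nat.mul_le_mul (hT2 _ h1) (hT2' _ h2))
  · beta_reduce
    rw [hT3, hT3', sum_mul_sum, ← Fintype.sum_prod_type']
    rw [← sum_fiberwise (s := (univ : Finset (Finset ι × Finset ι)))
      (g := fun p : Finset ι × Finset ι => p.1 ∪ p.2)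
      (f := fun p : Finset ι × Finset ι => T p.1 x * T' p.2 x)]

lemma Pol.of_loc {q : ι → ℕ} {Z : ℕ} {E : Finset ι} (hE : ∏ i ∈ E, q i ≤ Z)
    {F : (∀ i, V i) → ℝ} (hF : Loc E F) : Pol q Z F := by
  refine ⟨fun K => if K = E then F else 0, fun K => ?_, fun K hK => ?_, fun x => ?_⟩
  · beta_reduce
    split_ifs with h
    · rw [h]; exact hF
    · intro x y _; rfl
  · beta_reduce at hK
    split_ifs at hK with h
    · rw [h]; exact hE
    · exact absurd rfl hK
  · have : ∀ K : Finset ι, (if K = E then F else 0) x = if K = E then F x else 0 := by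
      intro K; split_ifs <;> rfl
    rw [sum_congr rfl fun K _ => this K, sum_ite_eq', if_pos (mem_univ _)]

lemma Pol.mono {q : ι → ℕ} {Z Z' : ℕ} (h : Z ≤ Z') {F : (∀ i, V i) → ℝ} (hF : Pol q Z F) :
    Pol q Z' F := by
  obtain ⟨T, h1, h2, h3⟩ := hF
  exact ⟨T, h1, fun E hE => (h2 E hE).trans h, h3⟩

lemma Pol.pow {q : ι → ℕ} (hq : ∀ i, 1 ≤ q i) {Z : ℕ} {F : (∀ i, V i) → ℝ} (hF : Pol q Z F)
    (k : ℕ) : Pol q (Z ^ k) (fun x => F x ^ k) := by
  induction k with
  | zero =>
    have : (fun x => F x ^ 0) = fun _ : (∀ i, V i) => (1 : ℝ) := by funext x; simp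
    rw [this]
    exact Pol.of_loc (E := ∅) (by simp) (fun _ _ _ => rfl)
  | succ k ih =>
    have h := Pol.mul hq ih hF
    rw [pow_succ]
    have e : (fun x => F x ^ (k + 1)) = fun x => F x ^ k * F x := by funext x; rw [pow_succ]
    rw [e]; exact h

/-- centred decomposition of a polynomial function -/
lemma Pol.centred (H : Wt w) {q : ι → ℕ} (hq : ∀ i, 1 ≤ q i) {Z : ℕ} {F : (∀ i, V i) → ℝ}
    (hF : Pol q Z F) : ∃ f : Finset ι → (∀ i, V i) → ℝ, (∀ C, Loc C (f C)) ∧
      (∀ C, ∀ i ∈ C, av1 w i (f C) = 0) ∧ (∀ C, f C ≠ 0 → ∏ i ∈ C, q i ≤ Z) ∧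
      ∀ x, F x = ∑ C, f C x := by
  obtain ⟨T, hT1, hT2, hT3⟩ := hF
  have hex : ∀ E : Finset ι, ∃ f : Finset ι → (∀ i, V i) → ℝ,
      (∀ C ⊆ E, Loc (C ∪ ∅) (f C) ∧ ∀ i ∈ C ∪ ∅, av1 w i (f C) = 0) ∧
      ∀ x, T E x = ∑ C ∈ E.powerset, f C x := fun E =>
    decomp H E ∅ (disjoint_empty_right _) (T E) (by rw [union_empty]; exact hT1 E) (by simp)
  choose g hg1 hg2 using hex
  refine ⟨fun C x => ∑ E : Finset ι with C ⊆ E ∧ T E ≠ 0, g E C x, fun C => ?_, fun C i hi => ?_,
    fun C hC => ?_, fun x => ?_⟩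
  · intro x y hxy
    refine sum_congr rfl fun E hE => ?_
    have h := (hg1 E C (mem_filter.mp hE).2.1).1
    rw [union_empty] at h
    exact h x y hxy
  · funext x
    have h1 : av1 w i (fun x => ∑ E : Finset ι with C ⊆ E ∧ T E ≠ 0, g E C x) x
        = ∑ E : Finset ι with C ⊆ E ∧ T E ≠ 0, av1 w i (g E C) x := by
      unfold av1
      rw [sum_comm]
      refine sum_congr rfl fun a _ => ?_
      rw [mul_sum]
    rw [h1]
    refine sum_eq_zero fun E hE => ?_
    have h := (hg1 E C (mem_filter.mp hE).2.1).2 i (by rw [union_empty]; exact hi)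
    rw [h]; rfl
  · by_contra hlt
    apply hC
    funext x
    refine sum_eq_zero fun E hE => ?_
    exfalso
    obtain ⟨hCE, hTE⟩ := (mem_filter.mp hE).2
    exact hlt ((prod_le_prod_of_subset_of_one_le' hCE fun i _ _ => hq i).trans (hT2 E hTE))
  · rw [hT3]
    have h1 : ∀ E : Finset ι, T E x = ∑ C : Finset ι, if C ⊆ E ∧ T E ≠ 0 then g E C x else 0 := by
      intro E
      by_cases hTE : T E = 0
      · rw [hTE]; simp
      · rw [hg2 E x, ← sum_filter]
        refine sum_congr ?_ fun _ _ => rfl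
        ext C
        simp [hTE]
    rw [sum_congr rfl fun E _ => h1 E, sum_comm]
    refine sum_congr rfl fun C _ => ?_
    beta_reduce
    rw [sum_filter]

/-- orthogonality -/
lemma ew_orth (H : Wt w) {C C' : Finset ι} (hne : C ≠ C') {f g : (∀ i, V i) → ℝ} (hf : Loc C f)
    (hg : Loc C' g) (hfc : ∀ i ∈ C, av1 w i f = 0) (hgc : ∀ i ∈ C', av1 w i g = 0) :
    ew w (fun x => f x * g x) = 0 := by
  have key : ∀ {C C' : Finset ι} {f g : (∀ i, V i) → ℝ}, Loc C' g → (∀ i ∈ C, av1 w i f = 0) →
      ∀ i ∈ C, i ∉ C' → ew w (fun x => f x * g x) = 0 := by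
    intro C C' f g hg hfc i hi hi'
    rw [ew_av1 H i]
    have : av1 w i (fun x => f x * g x) = 0 := by
      funext x
      unfold av1
      have h1 : ∀ a, w i a * (f (Function.update x i a) * g (Function.update x i a))
          = w i a * f (Function.update x i a) * g x := by
        intro a
        rw [hg.indep hi' x a]; ring
      rw [sum_congr rfl fun a _ => h1 a, ← sum_mul]
      have h2 := congrFun (hfc i hi) x
      unfold av1 at h2
      rw [h2]; simp
    rw [this]
    simp [ew]
  by_cases h : C ⊆ C'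
  · have h2 : ¬ C' ⊆ C := fun h3 => hne (subset_antisymm h h3)
    obtain ⟨i, hi, hi'⟩ := not_subset.mp h2
    have h3 := key (C := C') (C' := C) (f := g) (g := f) hf hgc i hi hi'
    have e : (fun x => f x * g x) = fun x => g x * f x := by funext x; ring
    rw [e]; exact h3
  · obtain ⟨i, hi, hi'⟩ := not_subset.mp h
    exact key hg hfc i hi hi'

end

end Vale.Agent.P042.H438
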