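import Vale.Agent.P042.H438.DCf
import Vale.Agent.P042.H685.Smooth

/-! Density caps for even moments in the literal form used by the level inequality. -/

namespace Vale.Agent.P042.H438

open Finset Vale.Agent.P042.H779.Ab
open Vale.Agent.P042.H956 (pin)
open Vale.Agent.P042.H858 (pf pt iv)
open Vale.Agent.P042.H685 (Deg)

set_option linter.unusedSectionVars false

section
variable {ι : Type*} [Fintype ι] [DecidableEq ι] {V : ι → Type*} [∀ i, Fintype (V i)]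
  [∀ i, DecidableEq (V i)]

/-- cap for the even moments of the degenerate sums of accessible degree, all pins -/
def DCd (u : ∀ i, V i → ℝ) (mu : (∀ i, V i) → ℝ) (dd : ℕ) (D : ℝ) : Prop :=
  ∀ Q U : Finset ι, Disjoint Q U → ∀ b : ∀ i, V i, ∀ T : Finset ι → (∀ i, V i) → ℝ,
    (∀ E, Loc E (T E)) → (∀ E, ∀ j ∈ E, Deg u j (T E)) → ∀ e k : ℕ, Q.card + 2 * k * e ≤ dd →
      ∑ x, pin u mu Q b x * (∑ E ∈ U.powersetCard e, T E x) ^ (2 * k)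
        ≤ Real.exp D * ∑ x, pw u x * (∑ E ∈ U.powersetCard e, T E x) ^ (2 * k)

variable {q : ι → ℕ} {r : ∀ i, ℕ → V i}

/-- the cap without degeneracy, only locality is needed; total degree `|Q| + k e ≤ dd` -/
theorem dcd0 (H : Rs q r) {nu : ℕ → ℝ} {A M : ℕ} {n0 D N : ℕ} {κ DD : ℝ}
    (hD0 : 0 < D) (hκ : 0 ≤ κ) (hD : ∀ i, D.Coprime (q i))
    (hsupp : ∀ i < M, nu (A + i) ≠ 0 → ∃ j < N, A + i = n0 + D * j)
    (hcap : ∀ i < M, nu (A + i) ≤ κ) {Y dd : ℕ} (hY1 : 1 ≤ Y) (hY : ∀ i, q i ≤ Y)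
    (hN : 2 * ((Y ^ dd : ℕ) : ℝ) ^ 4 ≤ N) (hDD : 2 * κ * N ≤ Real.exp DD)
    {Q U : Finset ι} (hQU : Disjoint Q U) (b : ∀ i, V i) {T : Finset ι → (∀ i, V i) → ℝ}
    (hT : ∀ E, Loc E (T E)) {e k : ℕ} (hk : Q.card + k * e ≤ dd) :
    ∑ x, pin (uw q) (pf r nu A M) Q b x * (∑ E ∈ U.powersetCard e, T E x) ^ (2 * k)
      ≤ Real.exp DD * ∑ x, pw (uw q) x * (∑ E ∈ U.powersetCard e, T E x) ^ (2 * k) := by
  classical
  have hpol : Pol q (Y ^ e) (fun x => ∑ E ∈ U.powersetCard e, T E x) :=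
    pol_card (fun i _ => hY i) e hT
  have hind : ∀ i ∈ Q, Indep i (fun x => ∑ E ∈ U.powersetCard e, T E x) := by
    intro i hi x a
    beta_reduce
    refine sum_congr rfl fun E hE => ?_
    have hiE : i ∉ E := fun h => disjoint_left.mp hQU hi ((mem_powersetCard.mp hE).1 h)
    exact (hT E).indep hiE x a
  have h1 := dc H hD0 hκ hD hsupp hcap Q b hpol hind k
  beta_reduce at h1
  have hE0 : 0 ≤ ∑ x, pw (uw q) x * (∑ E ∈ U.powersetCard e, T E x) ^ (2 * k) :=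
    sum_nonneg fun x _ => mul_nonneg (pw_nn H.wt x) (by
      rw [pow_mul]; exact pow_nonneg (sq_nonneg _) _)
  refine h1.trans (mul_le_mul_of_nonneg_right ?_ hE0)
  have h2 : (∏ i ∈ Q, q i) * (Y ^ e) ^ k ≤ Y ^ dd := by
    calc (∏ i ∈ Q, q i) * (Y ^ e) ^ k ≤ Y ^ Q.card * (Y ^ e) ^ k :=
          Nat.mul_le_mul_right _ (prod_le_pow_card _ _ _ fun i _ => hY i)
      _ = Y ^ (Q.card + k * e) := by rw [← pow_mul, ← pow_add, mul_comm e k]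
      _ ≤ Y ^ dd := Nat.pow_le_pow_right hY1 hk
  have h3 : (((∏ i ∈ Q, q i) * (Y ^ e) ^ k : ℕ) : ℝ) ≤ ((Y ^ dd : ℕ) : ℝ) := by exact_mod_cast h2
  have h4 : 2 * (((∏ i ∈ Q, q i) * (Y ^ e) ^ k : ℕ) : ℝ) ^ 4 ≤ N := by
    refine le_trans ?_ hN
    have := pow_le_pow_left₀ (Nat.cast_nonneg _) h3 4
    linarith
  calc κ * (N + 2 * (((∏ i ∈ Q, q i) * (Y ^ e) ^ k : ℕ) : ℝ) ^ 4)
      ≤ κ * (N + N) := mul_le_mul_of_nonneg_left (by linarith) hκ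
    _ = 2 * κ * N := by ring
    _ ≤ _ := hDD

/-- **(DC)**, literal form -/
theorem dcd (H : Rs q r) {nu : ℕ → ℝ} {A M : ℕ} {n0 D N : ℕ} {κ DD : ℝ}
    (hD0 : 0 < D) (hκ : 0 ≤ κ) (hD : ∀ i, D.Coprime (q i))
    (hsupp : ∀ i < M, nu (A + i) ≠ 0 → ∃ j < N, A + i = n0 + D * j)
    (hcap : ∀ i < M, nu (A + i) ≤ κ) {Y dd : ℕ} (hY1 : 1 ≤ Y) (hY : ∀ i, q i ≤ Y)
    (hN : 2 * ((Y ^ dd : ℕ) : ℝ) ^ 4 ≤ N) (hDD : 2 * κ * N ≤ Real.exp DD) :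
    DCd (uw q) (pf r nu A M) dd DD := by
  intro Q U hQU b T hT _ e k hk
  exact dcd0 H hD0 hκ hD hsupp hcap hY1 hY hN hDD hQU b hT
    (le_trans (by nlinarith [Nat.zero_le (k * e)]) hk)

end

end Vale.Agent.P042.H438
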