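import Vale.Agent.P042.H438.DC
import Vale.Agent.P042.H956.LiMain

/-! Density caps for even moments of low degree polynomials: integer laws, with pins. -/

namespace Vale.Agent.P042.H438

open Finset Vale.Agent.P042.H779.Ab
open Vale.Agent.P042.H956 (pin)
open Vale.Agent.P042.H858 (pf pt iv)
open Vale.Agent.P042.H482 (hc nh)

set_option linter.unusedSectionVars false

section
variable {ι : Type*} [Fintype ι] [DecidableEq ι] {V : ι → Type*} [∀ i, Fintype (V i)]
  [∀ i, DecidableEq (V i)] {q : ι → ℕ} {r : ∀ i, ℕ → V i}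

/-- expectation over a cylinder of a function not depending on the pinned coordinates -/
lemma ew_cylG (H : Rs q r) (R : Finset ι) (y : ∀ i, V i) {G : (∀ i, V i) → ℝ}
    (hG : ∀ i ∈ R, Indep i G) :
    ew (uw q) (fun x => if ∀ i ∈ R, x i = y i then G x else 0)
      = (∏ i ∈ R, (1 / (q i : ℝ))) * ew (uw q) G := by
  classical
  induction R using Finset.induction_on with
  | empty => simp [ew]
  | insert i R hi ih =>
    rw [prod_insert hi, mul_assoc, ← ih fun j hj => hG j (mem_insert_of_mem hj), ew_av1 H.wt i]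
    have h1 : av1 (uw q) i (fun x => if ∀ j ∈ insert i R, x j = y j then G x else 0)
        = fun x => 1 / (q i : ℝ) * if ∀ j ∈ R, x j = y j then G x else 0 := by
      funext x
      unfold av1
      have h2 : ∀ a : V i, uw q i a *
          (if ∀ j ∈ insert i R, (Function.update x i a) j = y j then
            G (Function.update x i a) else 0)
          = if y i = a then 1 / (q i : ℝ) * (if ∀ j ∈ R, x j = y j then G x else 0) else 0 := by
        intro a
        have h3 : (∀ j ∈ insert i R, (Function.update x i a) j = y j)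
            ↔ (y i = a ∧ ∀ j ∈ R, x j = y j) := by
          constructor
          · intro h
            refine ⟨by have := h i (mem_insert_self i R); simpa using this.symm, fun j hj => ?_⟩
            have hji : j ≠ i := fun h => hi (h ▸ hj)
            have := h j (mem_insert_of_mem hj)
            simpa [hji] using this
          · rintro ⟨h1, h2⟩ j hj
            rcases mem_insert.mp hj with rfl | hj
            · simpa using h1.symm
            · have hji : j ≠ i := fun h => hi (h ▸ hj)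
              simpa [hji] using h2 j hj
        rw [hG i (mem_insert_self i R) x a]
        by_cases hya : y i = a
        · rw [if_pos hya]
          by_cases hR : ∀ j ∈ R, x j = y j
          · rw [if_pos (h3.2 ⟨hya, hR⟩), if_pos hR]; rfl
          · rw [if_neg fun h => hR (h3.1 h).2, if_neg hR]; simp
        · rw [if_neg hya, if_neg fun h => hya (h3.1 h).1]; simp
      rw [sum_congr rfl fun a _ => h2 a, sum_ite_eq, if_pos (mem_univ _)]
    rw [h1]
    unfold ew
    rw [mul_sum]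
    exact sum_congr rfl fun x _ => by ring

lemma loc_cyl (R : Finset ι) (y : ∀ i, V i) :
    Loc R (fun x : ∀ i, V i => if ∀ i ∈ R, x i = y i then (1 : ℝ) else 0) := by
  intro x x' h
  have : (∀ i ∈ R, x i = y i) ↔ (∀ i ∈ R, x' i = y i) :=
    ⟨fun h1 i hi => by rw [← h i hi]; exact h1 i hi, fun h1 i hi => by rw [h i hi]; exact h1 i hi⟩
  simp only [this]

/-- **density cap for even moments**, integer law supported on a progression, with pins -/
theorem dc (H : Rs q r) {nu : ℕ → ℝ} {A M : ℕ} {n0 D N : ℕ} {κ : ℝ}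
    (hD0 : 0 < D) (hκ : 0 ≤ κ) (hD : ∀ i, D.Coprime (q i))
    (hsupp : ∀ i < M, nu (A + i) ≠ 0 → ∃ j < N, A + i = n0 + D * j)
    (hcap : ∀ i < M, nu (A + i) ≤ κ) (S : Finset ι) (b : ∀ i, V i) {Z : ℕ}
    {X : (∀ i, V i) → ℝ} (hX : Pol q Z X) (hXS : ∀ i ∈ S, Indep i X) (k : ℕ) :
    ∑ x, pin (uw q) (pf r nu A M) S b x * X x ^ (2 * k)
      ≤ κ * (N + 2 * (((∏ i ∈ S, q i) * Z ^ k : ℕ) : ℝ) ^ 4)
        * ∑ x, pw (uw q) x * X x ^ (2 * k) := by
  classical
  obtain ⟨P, hP⟩ : ∃ P : ℝ, P = ∏ i ∈ S, (q i : ℝ) := ⟨_, rfl⟩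
  have hPpos : 0 < P := by rw [hP]; exact prod_pos fun i _ => by have := H.pos i; positivity
  obtain ⟨F, hF⟩ : ∃ F : (∀ i, V i) → ℝ,
    F = fun x => (if ∀ i ∈ S, x i = b i then (1 : ℝ) else 0) * X x ^ k := ⟨_, rfl⟩
  have hFpol : Pol q ((∏ i ∈ S, q i) * Z ^ k) F := by
    rw [hF]
    exact Pol.mul (fun i => H.pos i) (Pol.of_loc le_rfl (loc_cyl S b))
      (Pol.pow (fun i => H.pos i) hX k)
  have hFsq : ∀ x, F x ^ 2 = if ∀ i ∈ S, x i = b i then X x ^ (2 * k) else 0 := by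
    intro x
    rw [hF]
    beta_reduce
    split_ifs
    · rw [one_mul, ← pow_mul, mul_comm k 2]
    · simp
  have hG0 : ∀ x, 0 ≤ F x ^ 2 := fun x => sq_nonneg _
  -- the left hand side as a sum over integers
  have h1 : ∑ x, pin (uw q) (pf r nu A M) S b x * X x ^ (2 * k)
      = P * ∑ j : Fin M, nu (A + j) * F (pnt r (A + j)) ^ 2 := by
    have e1 : ∀ x, pin (uw q) (pf r nu A M) S b x * X x ^ (2 * k)
        = P * (pf r nu A M x * F x ^ 2) := by
      intro x
      rw [hFsq]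
      unfold pin
      by_cases h : ∀ i ∈ S, x i = b i
      · rw [if_pos h, if_pos h]
        have e2 : ∏ i ∈ S, uw (V := V) q i (b i) = P⁻¹ := by
          unfold uw
          rw [prod_div_distrib, prod_const_one, hP, one_div]
        rw [e2, div_inv_eq_mul]
        ring
      · rw [if_neg h, if_neg h]; simp
    rw [sum_congr rfl fun x _ => e1 x, ← mul_sum]
    congr 1
    unfold pf
    rw [Vale.Agent.P042.H461.sum_push]
    rfl
  -- comparison with the progression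
  have h2 : ∑ j : Fin M, nu (A + j) * F (pnt r (A + j)) ^ 2
      ≤ κ * ∑ j ∈ range N, F (pnt r (n0 + D * j)) ^ 2 := by
    have e1 : ∑ j : Fin M, nu (A + j) * F (pnt r (A + j)) ^ 2
        = ∑ i ∈ range M, nu (A + i) * F (pnt r (A + i)) ^ 2 :=
      (Finset.sum_range fun i => nu (A + i) * F (pnt r (A + i)) ^ 2).symm
    rw [e1]
    have e2 : ∑ i ∈ range M, nu (A + i) * F (pnt r (A + i)) ^ 2
        ≤ ∑ i ∈ (range M).filter (fun i => nu (A + i) ≠ 0), κ * F (pnt r (A + i)) ^ 2 := by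
      rw [sum_filter]
      refine sum_le_sum fun i hi => ?_
      by_cases h0 : nu (A + i) = 0
      · rw [if_neg (not_not.2 h0), h0, zero_mul]
      · rw [if_pos h0]
        exact mul_le_mul_of_nonneg_right (hcap i (mem_range.mp hi)) (hG0 _)
    refine e2.trans ?_
    rw [← mul_sum]
    refine mul_le_mul_of_nonneg_left ?_ hκ
    have e3 : ∑ i ∈ (range M).filter (fun i => nu (A + i) ≠ 0), F (pnt r (A + i)) ^ 2
        = ∑ n ∈ ((range M).filter (fun i => nu (A + i) ≠ 0)).image (fun i => A + i),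
          F (pnt r n) ^ 2 := by
      rw [sum_image]
      intro i _ j _ hij
      have : A + i = A + j := hij
      omega
    have e4 : ∑ j ∈ range N, F (pnt r (n0 + D * j)) ^ 2
        = ∑ n ∈ (range N).image (fun j => n0 + D * j), F (pnt r n) ^ 2 := by
      rw [sum_image]
      intro i _ j _ hij
      have h3 : n0 + D * i = n0 + D * j := hij
      exact Nat.eq_of_mul_eq_mul_left hD0 (by omega)
    rw [e3, e4]
    refine sum_le_sum_of_subset_of_nonneg ?_ fun n _ _ => hG0 _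
    intro n hn
    obtain ⟨i, hi, rfl⟩ := mem_image.mp hn
    obtain ⟨hi1, hi2⟩ := mem_filter.mp hi
    obtain ⟨j, hj, hj2⟩ := hsupp i (mem_range.mp hi1) hi2
    exact mem_image.mpr ⟨j, mem_range.mpr hj, hj2.symm⟩
  have h3 := dc2 H hFpol hD n0 N
  have h4 : ew (uw q) (fun x => F x ^ 2) = P⁻¹ * ∑ x, pw (uw q) x * X x ^ (2 * k) := by
    have e1 : (fun x => F x ^ 2) = fun x => if ∀ i ∈ S, x i = b i then X x ^ (2 * k) else 0 :=
      funext hFsq
    rw [e1, ew_cylG H S b]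
    · rw [prod_div_distrib, prod_const_one, ← hP, one_div]
      rfl
    · intro i hi x a
      beta_reduce
      rw [hXS i hi x a]
  rw [h1]
  rw [h4] at h3
  calc P * ∑ j : Fin M, nu (A + j) * F (pnt r (A + j)) ^ 2
      ≤ P * (κ * ((N + 2 * (((∏ i ∈ S, q i) * Z ^ k : ℕ) : ℝ) ^ 4)
          * (P⁻¹ * ∑ x, pw (uw q) x * X x ^ (2 * k)))) := by
        refine mul_le_mul_of_nonneg_left (h2.trans ?_) hPpos.le
        exact mul_le_mul_of_nonneg_left h3 hκ
    _ = _ := by
        rw [show P * (κ * ((N + 2 * (((∏ i ∈ S, q i) * Z ^ k : ℕ) : ℝ) ^ 4)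
          * (P⁻¹ * ∑ x, pw (uw q) x * X x ^ (2 * k))))
          = (P * P⁻¹) * (κ * (N + 2 * (((∏ i ∈ S, q i) * Z ^ k : ℕ) : ℝ) ^ 4)
          * ∑ x, pw (uw q) x * X x ^ (2 * k)) by ring, mul_inv_cancel₀ hPpos.ne', one_mul]

lemma pol_card {U : Finset ι} {Y : ℕ} (hY : ∀ i ∈ U, q i ≤ Y) (e : ℕ)
    {T : Finset ι → (∀ i, V i) → ℝ} (hT : ∀ E, Loc E (T E)) :
    Pol q (Y ^ e) (fun x => ∑ E ∈ U.powersetCard e, T E x) := by
  classical
  refine ⟨fun E => if E ∈ U.powersetCard e then T E else 0, fun E => ?_, fun E hE => ?_,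
    fun x => ?_⟩
  · beta_reduce
    split_ifs
    · exact hT E
    · intro _ _ _; rfl
  · beta_reduce at hE
    split_ifs at hE with h
    · obtain ⟨h1, h2⟩ := mem_powersetCard.mp h
      rw [← h2]
      exact prod_le_pow_card _ _ _ fun i hi => hY i (h1 hi)
    · exact absurd rfl hE
  · beta_reduce
    have h1 : ∀ E : Finset ι, (if E ∈ U.powersetCard e then T E else 0) x
        = if E ∈ U.powersetCard e then T E x else 0 := by
      intro E; split_ifs <;> rfl
    rw [sum_congr rfl fun E _ => h1 E, ← sum_filter]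
    refine sum_congr ?_ fun _ _ => rfl
    ext E; simp

lemma loc_hc (w : ∀ i, V i → ℝ) (ρ : (∀ i, V i) → ℝ) (E : Finset ι) :
    Loc E (hc (gdw w ρ) E) := by
  intro x y hxy
  unfold hc
  refine sum_congr rfl fun C hC => ?_
  rw [loc_gdw C x y fun i hi => hxy i (mem_powerset.mp hC hi)]

/-- **(DC) in the form of `H956.li`**: `ρ` = the integer law pinned at `A1` -/
theorem dc_li (H : Rs q r) {nu : ℕ → ℝ} {A M : ℕ} {n0 D N : ℕ} {κ DD : ℝ}
    (hD0 : 0 < D) (hκ : 0 ≤ κ) (hD : ∀ i, D.Coprime (q i))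
    (hsupp : ∀ i < M, nu (A + i) ≠ 0 → ∃ j < N, A + i = n0 + D * j)
    (hcap : ∀ i < M, nu (A + i) ≤ κ) (A1 U0 : Finset ι) (hAU : Disjoint A1 U0) (b1 : ∀ i, V i)
    {Y s1 : ℕ} (hY : ∀ i ∈ U0, q i ≤ Y) (hY1 : 1 ≤ Y) (k : ℕ → ℕ)
    (hN : ∀ e, 1 ≤ e → e ≤ s1 →
      2 * (((∏ i ∈ A1, q i) * Y ^ s1 * (Y ^ e) ^ k e : ℕ) : ℝ) ^ 4 ≤ N)
    (hDD : 2 * κ * N ≤ Real.exp DD) :
    ∀ S ⊆ U0, ∀ b : ∀ i, V i, ∀ e, 1 ≤ e → S.card + e ≤ s1 →
      ∑ x, pin (uw q) (pin (uw q) (pf r nu A M) A1 b1) S b x *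
        (∑ E ∈ (U0 \ S).powersetCard e,
          hc (gdw (uw q) (pin (uw q) (pin (uw q) (pf r nu A M) A1 b1) S b)) E x) ^ (2 * k e)
      ≤ Real.exp DD * ∑ x, pw (uw q) x *
        (∑ E ∈ (U0 \ S).powersetCard e,
          hc (gdw (uw q) (pin (uw q) (pin (uw q) (pf r nu A M) A1 b1) S b)) E x) ^ (2 * k e) := by
  classical
  intro S hS b e he1 he2
  have hdS : Disjoint A1 S := disjoint_of_subset_right hS hAU
  rw [Vale.Agent.P042.H956.pin_pin hdS b1 b]
  obtain ⟨c, hc⟩ : ∃ c, c = Vale.Agent.P042.H956.ov S b b1 := ⟨_, rfl⟩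
  rw [← hc]
  obtain ⟨X, hX⟩ : ∃ X : (∀ i, V i) → ℝ, X = fun x => ∑ E ∈ (U0 \ S).powersetCard e,
    Vale.Agent.P042.H482.hc (gdw (uw q) (pin (uw q) (pf r nu A M) (A1 ∪ S) c)) E x := ⟨_, rfl⟩
  have hXx : ∀ x, ∑ E ∈ (U0 \ S).powersetCard e,
    Vale.Agent.P042.H482.hc (gdw (uw q) (pin (uw q) (pf r nu A M) (A1 ∪ S) c)) E x = X x :=
    fun x => by rw [hX]
  simp only [hXx]
  have hpol : Pol q (Y ^ e) X := by
    rw [hX]
    exact pol_card (fun i hi => hY i (mem_sdiff.mp hi).1) e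
      fun E => loc_hc _ _ E
  have hind : ∀ i ∈ A1 ∪ S, Indep i X := by
    intro i hi x a
    rw [hX]
    beta_reduce
    refine sum_congr rfl fun E hE => ?_
    have hEU := (mem_powersetCard.mp hE).1
    have hiE : i ∉ E := by
      intro h
      have h2 := mem_sdiff.mp (hEU h)
      rcases mem_union.mp hi with h3 | h3
      · exact (disjoint_left.mp hAU h3) h2.1
      · exact h2.2 h3
    exact (loc_hc _ _ E).indep hiE x a
  have h1 := dc H hD0 hκ hD hsupp hcap (A1 ∪ S) c hpol hind (k e)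
  have hE0 : 0 ≤ ∑ x, pw (uw q) x * X x ^ (2 * k e) :=
    sum_nonneg fun x _ => mul_nonneg (pw_nn H.wt x) (by
      rw [pow_mul]; exact pow_nonneg (sq_nonneg _) _)
  refine h1.trans (mul_le_mul_of_nonneg_right ?_ hE0)
  have h2 : (∏ i ∈ A1 ∪ S, q i) * (Y ^ e) ^ k e ≤ (∏ i ∈ A1, q i) * Y ^ s1 * (Y ^ e) ^ k e := by
    refine Nat.mul_le_mul_right _ ?_
    rw [prod_union hdS]
    refine Nat.mul_le_mul_left _ ?_
    calc ∏ i ∈ S, q i ≤ Y ^ S.card := prod_le_pow_card _ _ _ fun i hi => hY i (hS hi)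
      _ ≤ Y ^ s1 := Nat.pow_le_pow_right hY1 (by omega)
  have h3 : (((∏ i ∈ A1 ∪ S, q i) * (Y ^ e) ^ k e : ℕ) : ℝ)
      ≤ (((∏ i ∈ A1, q i) * Y ^ s1 * (Y ^ e) ^ k e : ℕ) : ℝ) := by exact_mod_cast h2
  have h4 : 2 * (((∏ i ∈ A1 ∪ S, q i) * (Y ^ e) ^ k e : ℕ) : ℝ) ^ 4 ≤ N := by
    refine le_trans ?_ (hN e he1 (by omega))
    have := pow_le_pow_left₀ (Nat.cast_nonneg _) h3 4
    linarith
  calc κ * (N + 2 * (((∏ i ∈ A1 ∪ S, q i) * (Y ^ e) ^ k e : ℕ) : ℝ) ^ 4)
      ≤ κ * (N + N) := mul_le_mul_of_nonneg_left (by linarith) hκ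
    _ = 2 * κ * N := by ring
    _ ≤ _ := hDD

end

end Vale.Agent.P042.H438
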