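import Vale.Agent.P042.H438.Gibbs

/-! Elementary symmetric polynomials of centred one-body functions: moments from `EIp`. -/

namespace Vale.Agent.P042.H438

open Finset Vale.Agent.P042.H779 Vale.Agent.P042.H779.Ab Vale.Agent.P042.H482

set_option linter.unusedSectionVars false

/-- averaging over roots of unity isolates one coefficient -/
lemma root_avg {M : ℕ} {ω : ℂ} (hω : IsPrimitiveRoot ω M) {k m : ℕ} (hk : k < M) (hm : m < M) :
    ∑ t ∈ range M, (ω ^ t) ^ k * (ω ^ t) ^ (M - m) = if k = m then (M : ℂ) else 0 := by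
  have h1 : ∀ t, (ω ^ t) ^ k * (ω ^ t) ^ (M - m) = (ω ^ (k + (M - m))) ^ t := by
    intro t
    rw [← pow_add, ← pow_mul, ← pow_mul, mul_comm t]
  rw [sum_congr rfl fun t _ => h1 t]
  split_ifs with h
  · subst h
    have : k + (M - k) = M := by omega
    rw [this, hω.pow_eq_one]
    simp
  · have hne : ω ^ (k + (M - m)) ≠ 1 := by
      intro hc
      have := hω.dvd_of_pow_eq_one _ hc
      obtain ⟨c, hc⟩ := this
      rcases Nat.lt_or_ge c 1 with h0 | h0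
      · have : c = 0 := by omega
        subst this; omega
      rcases Nat.lt_or_ge c 2 with h1 | h1
      · have : c = 1 := by omega
        subst this; omega
      · have : M * 2 ≤ M * c := Nat.mul_le_mul_left M h1
        omega
    rw [geom_sum_eq hne, ← pow_mul, mul_comm, pow_mul, hω.pow_eq_one, one_pow, sub_self, zero_div]

lemma norm_one_add_le (z : ℂ) : ‖1 + z‖ ≤ Real.exp (z.re + ‖z‖ ^ 2 / 2) := by
  have h1 : ‖1 + z‖ ^ 2 = 1 + (2 * z.re + ‖z‖ ^ 2) := by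
    rw [Complex.sq_norm, Complex.sq_norm, Complex.normSq_apply, Complex.normSq_apply]
    simp
    ring
  have h2 : ‖1 + z‖ ^ 2 ≤ (Real.exp (z.re + ‖z‖ ^ 2 / 2)) ^ 2 := by
    rw [h1, ← Real.exp_nat_mul]
    have := Real.add_one_le_exp (2 * z.re + ‖z‖ ^ 2)
    calc 1 + (2 * z.re + ‖z‖ ^ 2) ≤ Real.exp (2 * z.re + ‖z‖ ^ 2) := by linarith
      _ = _ := by congr 1; push_cast; ring
  exact abs_le_of_sq_le_sq' h2 (Real.exp_pos _).le |>.2

section
variable {ι : Type*} [Fintype ι] [DecidableEq ι] {V : ι → Type*} [∀ i, Fintype (V i)]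
  [∀ i, DecidableEq (V i)] {w : ∀ i, V i → ℝ} {μ : (∀ i, V i) → ℝ}

/-- elementary symmetric polynomial of order `m` of the site functions `z i`, `i ∈ U` -/
noncomputable def em (U : Finset ι) (m : ℕ) (z : ∀ i, V i → ℂ) (y : ∀ i, V i) : ℂ :=
  ∑ E ∈ U.powersetCard m, ∏ i ∈ E, z i (y i)

/-- the exponent at the root of unity `ω^t` -/
noncomputable def ph (z : ∀ i, V i → ℂ) (ζ : ℂ) (i : ι) (b : V i) : ℝ :=
  (ζ * z i b).re + ‖ζ * z i b‖ ^ 2 / 2

lemma esymm_le (U : Finset ι) (m : ℕ) (c : ι → ℝ) (hc : ∀ i ∈ U, 0 ≤ c i) :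
    ∑ E ∈ U.powersetCard m, ∏ i ∈ E, c i ≤ (∑ i ∈ U, c i) ^ m := by
  induction U using Finset.induction_on generalizing m with
  | empty =>
    cases m with
    | zero => simp
    | succ m =>
      rw [powersetCard_eq_empty.mpr (by simp)]
      simp
  | insert i U hi ih =>
    have hcU : ∀ j ∈ U, 0 ≤ c j := fun j hj => hc j (mem_insert_of_mem hj)
    have hci : 0 ≤ c i := hc i (mem_insert_self i U)
    cases m with
    | zero => simp
    | succ m =>
      rw [powersetCard_succ_insert hi, sum_union, sum_image, sum_insert hi]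
      · have h1 := ih (m + 1) hcU
        have h2 : ∑ E ∈ U.powersetCard m, ∏ j ∈ insert i E, c j
            = c i * ∑ E ∈ U.powersetCard m, ∏ j ∈ E, c j := by
          rw [mul_sum]
          refine sum_congr rfl fun E hE => ?_
          have hEU := (mem_powersetCard.mp hE).1
          rw [prod_insert fun hc => hi (hEU hc)]
        rw [h2]
        have h3 := mul_le_mul_of_nonneg_left (ih m hcU) hci
        have hS : 0 ≤ ∑ j ∈ U, c j := sum_nonneg hcU
        have h4 : (∑ j ∈ U, c j) ^ m ≤ (c i + ∑ j ∈ U, c j) ^ m :=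
          pow_le_pow_left₀ hS (by linarith) m
        calc _ ≤ (∑ j ∈ U, c j) ^ (m + 1) + c i * (∑ j ∈ U, c j) ^ m := add_le_add h1 h3
          _ = (c i + ∑ j ∈ U, c j) * (∑ j ∈ U, c j) ^ m := by ring
          _ ≤ (c i + ∑ j ∈ U, c j) * (c i + ∑ j ∈ U, c j) ^ m :=
              mul_le_mul_of_nonneg_left h4 (by linarith)
          _ = _ := by ring
      · intro A hA B hB hAB
        have hA' : i ∉ A := fun hc => hi ((mem_powersetCard.mp hA).1 hc)
        have hB' : i ∉ B := fun hc => hi ((mem_powersetCard.mp hB).1 hc)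
        rw [← erase_insert hA', ← erase_insert hB', hAB]
      · rw [disjoint_left]
        intro A hA hA2
        obtain ⟨B, hB, rfl⟩ := mem_image.mp hA2
        exact hi ((mem_powersetCard.mp hA).1 (mem_insert_self i B))

lemma norm_em_le_pow (U : Finset ι) (m : ℕ) (z : ∀ i, V i → ℂ) (y : ∀ i, V i) {T : ℝ}
    (hT : ∑ i ∈ U, ‖z i (y i)‖ ≤ T) : ‖em U m z y‖ ≤ T ^ m := by
  have h0 : 0 ≤ ∑ i ∈ U, ‖z i (y i)‖ := sum_nonneg fun i _ => norm_nonneg _
  have h1 : ‖em U m z y‖ ≤ ∑ E ∈ U.powersetCard m, ∏ i ∈ E, ‖z i (y i)‖ := by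
    unfold em
    refine (norm_sum_le _ _).trans (le_of_eq ?_)
    exact sum_congr rfl fun E _ => by rw [norm_prod]
  refine h1.trans (le_trans ?_ (pow_le_pow_left₀ h0 hT m))
  exact esymm_le U m (fun i => ‖z i (y i)‖) fun i _ => norm_nonneg _

/-- Cauchy estimate over roots of unity. -/
lemma em_root (U : Finset ι) (m M : ℕ) (z : ∀ i, V i → ℂ) (y : ∀ i, V i) {ω : ℂ}
    (hω : IsPrimitiveRoot ω M) (hU : U.card < M) (hm : m < M) {s : ℝ} (hs : 0 ≤ s) :
    (M : ℝ) * (s ^ m * ‖em U m z y‖)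
      ≤ ∑ t ∈ range M, ∏ i ∈ U, ‖1 + (s : ℂ) * ω ^ t * z i (y i)‖ := by
  have hexp : ∀ t, ∏ i ∈ U, (1 + (s : ℂ) * ω ^ t * z i (y i))
      = ∑ k ∈ range (U.card + 1), (s : ℂ) ^ k * (ω ^ t) ^ k * em U k z y := by
    intro t
    rw [prod_one_add, sum_powerset]
    refine sum_congr rfl fun k _ => ?_
    unfold em
    rw [mul_sum]
    refine sum_congr rfl fun E hE => ?_
    rw [prod_mul_distrib, prod_const, (mem_powersetCard.mp hE).2, mul_pow]
  have hkey : ∑ t ∈ range M, (ω ^ t) ^ (M - m) * ∏ i ∈ U, (1 + (s : ℂ) * ω ^ t * z i (y i))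
      = (M : ℂ) * ((s : ℂ) ^ m * em U m z y) := by
    have h1 : ∀ t ∈ range M, (ω ^ t) ^ (M - m) * ∏ i ∈ U, (1 + (s : ℂ) * ω ^ t * z i (y i))
        = ∑ k ∈ range (U.card + 1), (s : ℂ) ^ k * em U k z y
            * ((ω ^ t) ^ k * (ω ^ t) ^ (M - m)) := by
      intro t _
      rw [hexp, mul_sum]
      exact sum_congr rfl fun k _ => by ring
    rw [sum_congr rfl h1, sum_comm]
    have h2 : ∀ k ∈ range (U.card + 1), ∑ t ∈ range M, (s : ℂ) ^ k * em U k z y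
        * ((ω ^ t) ^ k * (ω ^ t) ^ (M - m))
        = if k = m then (M : ℂ) * ((s : ℂ) ^ m * em U m z y) else 0 := by
      intro k hk
      have hkM : k < M := by have := mem_range.mp hk; omega
      rw [← mul_sum, root_avg hω hkM hm]
      split_ifs with h
      · subst h; ring
      · simp
    rw [sum_congr rfl h2, sum_ite_eq']
    split_ifs with h
    · rfl
    · have hlt : U.card < m := by
        by_contra hc
        exact h (mem_range.mpr (by omega))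
      have : em U m z y = 0 := by
        unfold em
        rw [powersetCard_eq_empty.mpr hlt, sum_empty]
      rw [this]; simp
  have h3 : ‖(M : ℂ) * ((s : ℂ) ^ m * em U m z y)‖ = (M : ℝ) * (s ^ m * ‖em U m z y‖) := by
    rw [norm_mul, norm_mul, norm_pow, Complex.norm_natCast, Complex.norm_of_nonneg hs]
  rw [← h3, ← hkey]
  refine (norm_sum_le _ _).trans (sum_le_sum fun t _ => ?_)
  have hM0 : M ≠ 0 := by omega
  rw [norm_mul, norm_pow, norm_pow, hω.norm'_eq_one hM0, one_pow, one_pow, one_mul, norm_prod]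

/-- pointwise truncated bound -/
lemma em_pt (U : Finset ι) (m M : ℕ) (z : ∀ i, V i → ℂ) (y : ∀ i, V i) {ω : ℂ}
    (hω : IsPrimitiveRoot ω M) (hU : U.card < M) (hm : m < M) {s T K : ℝ} (hs : 0 ≤ s)
    (hT : ∑ i ∈ U, ‖z i (y i)‖ ≤ T) (hK : (M : ℝ) * (s * T) ^ m ≤ Real.exp K) :
    (M : ℝ) * (s ^ m * ‖em U m z y‖)
      ≤ ∑ t ∈ range M, Real.exp (min (∑ i ∈ U, ph z ((s : ℂ) * ω ^ t) i (y i)) K) := by
  by_cases hall : ∀ t ∈ range M, ∑ i ∈ U, ph z ((s : ℂ) * ω ^ t) i (y i) ≤ K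
  · refine (em_root U m M z y hω hU hm hs).trans (sum_le_sum fun t ht => ?_)
    rw [min_eq_left (hall t ht), Real.exp_sum]
    refine prod_le_prod (fun i _ => norm_nonneg _) fun i _ => ?_
    exact norm_one_add_le _
  · push Not at hall
    obtain ⟨t, ht, hlt⟩ := hall
    have h1 : ‖em U m z y‖ ≤ T ^ m := norm_em_le_pow U m z y hT
    calc (M : ℝ) * (s ^ m * ‖em U m z y‖) ≤ (M : ℝ) * (s ^ m * T ^ m) := by gcongr
      _ = (M : ℝ) * (s * T) ^ m := by rw [mul_pow]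
      _ ≤ Real.exp K := hK
      _ = Real.exp (min (∑ i ∈ U, ph z ((s : ℂ) * ω ^ t) i (y i)) K) := by
          rw [min_eq_right hlt.le]
      _ ≤ _ := single_le_sum (f := fun t =>
          Real.exp (min (∑ i ∈ U, ph z ((s : ℂ) * ω ^ t) i (y i)) K))
          (fun _ _ => (Real.exp_pos _).le) ht

/-- one site -/
lemma site_exp (z : ∀ i, V i → ℂ) (i : ι) (hw0 : ∀ b, 0 ≤ w i b) (hw1 : ∑ b, w i b = 1)
    (hz : ∑ b, (w i b : ℂ) * z i b = 0) {b0 lam s : ℝ} (hb : ∀ b, ‖z i b‖ ≤ b0) (hs : 0 ≤ s)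
    (hlam : 0 < lam) (hlam1 : lam ≤ 1) (hsb : s * b0 ≤ lam / 2) {ζ : ℂ} (hζ : ‖ζ‖ = s) :
    ∑ b, w i b * Real.exp (ph z ζ i b / lam)
      ≤ Real.exp (3 * s ^ 2 * (∑ b, w i b * ‖z i b‖ ^ 2) / lam ^ 2) := by
  have hpt : ∀ b, w i b * Real.exp (ph z ζ i b / lam)
      ≤ w i b + w i b * (ζ * z i b).re / lam + w i b * ‖z i b‖ ^ 2 * (5 / 2 * s ^ 2 / lam ^ 2) := by
    intro b
    obtain ⟨n, hn⟩ : ∃ n, n = ‖z i b‖ := ⟨_, rfl⟩
    have hn0 : 0 ≤ n := by rw [hn]; exact norm_nonneg _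
    have hnz : ‖ζ * z i b‖ = s * n := by rw [norm_mul, hζ, hn]
    have hsn0 : 0 ≤ s * n := mul_nonneg hs hn0
    have hsn : s * n ≤ lam / 2 := by
      refine le_trans (mul_le_mul_of_nonneg_left ?_ hs) hsb
      rw [hn]; exact hb b
    have hre : |(ζ * z i b).re| ≤ s * n := by rw [← hnz]; exact Complex.abs_re_le_norm _
    obtain ⟨r, hr⟩ : ∃ r, r = (ζ * z i b).re := ⟨_, rfl⟩
    rw [← hr] at hre ⊢
    have hrl := abs_le.mp hre
    have hph : ph z ζ i b = r + (s * n) ^ 2 / 2 := by unfold ph; rw [hnz, hr]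
    rw [hph, ← hn]
    have hu1 : |r + (s * n) ^ 2 / 2| ≤ s * n * (5 / 4) := by
      rw [abs_le]; constructor <;> nlinarith
    have hu2 : |(r + (s * n) ^ 2 / 2) / lam| ≤ 1 := by
      rw [abs_div, abs_of_pos hlam, div_le_one hlam]
      nlinarith
    have h1 := (abs_le.mp (Real.abs_exp_sub_one_sub_id_le hu2)).2
    have h2 : ((r + (s * n) ^ 2 / 2) / lam) ^ 2 ≤ (s * n * (5 / 4)) ^ 2 / lam ^ 2 := by
      rw [div_pow]
      exact div_le_div_of_nonneg_right (by rw [← sq_abs]; gcongr) (by positivity)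
    have h3 : (s * n) ^ 2 / 2 / lam ≤ (s * n) ^ 2 / 2 / lam ^ 2 := by
      refine div_le_div_of_nonneg_left (by positivity) (by positivity) ?_
      nlinarith
    have h4 : Real.exp ((r + (s * n) ^ 2 / 2) / lam)
        ≤ 1 + r / lam + n ^ 2 * (5 / 2 * s ^ 2 / lam ^ 2) := by
      have h5 : (r + (s * n) ^ 2 / 2) / lam = r / lam + (s * n) ^ 2 / 2 / lam := by rw [add_div]
      have h6 : (s * n * (5 / 4)) ^ 2 / lam ^ 2 + (s * n) ^ 2 / 2 / lam ^ 2
          ≤ n ^ 2 * (5 / 2 * s ^ 2 / lam ^ 2) := by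
        have e1 : (s * n * (5 / 4)) ^ 2 / lam ^ 2 + (s * n) ^ 2 / 2 / lam ^ 2
          = (33 / 16) * (n ^ 2 * (s ^ 2 / lam ^ 2)) := by field_simp; ring
        have e2 : n ^ 2 * (5 / 2 * s ^ 2 / lam ^ 2) = (5 / 2) * (n ^ 2 * (s ^ 2 / lam ^ 2)) := by
          ring
        rw [e1, e2]
        have : 0 ≤ n ^ 2 * (s ^ 2 / lam ^ 2) := by positivity
        linarith
      linarith
    have h7 := mul_le_mul_of_nonneg_left h4 (hw0 b)
    calc _ ≤ w i b * (1 + r / lam + n ^ 2 * (5 / 2 * s ^ 2 / lam ^ 2)) := h7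
      _ = _ := by ring
  have hsum := sum_le_sum fun b (_ : b ∈ (univ : Finset (V i))) => hpt b
  rw [sum_add_distrib, sum_add_distrib, hw1, ← sum_mul] at hsum
  have hz' : ∑ b, w i b * (ζ * z i b).re / lam = 0 := by
    rw [← sum_div]
    have : ∑ b, w i b * (ζ * z i b).re = (ζ * ∑ b, (w i b : ℂ) * z i b).re := by
      rw [mul_sum, Complex.re_sum]
      refine sum_congr rfl fun b _ => ?_
      rw [show ζ * ((w i b : ℂ) * z i b) = (w i b : ℂ) * (ζ * z i b) by ring, Complex.re_ofReal_mul]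
    rw [this, hz]; simp
  rw [hz', add_zero] at hsum
  have hE0 : 0 ≤ ∑ b, w i b * ‖z i b‖ ^ 2 :=
    sum_nonneg fun b _ => mul_nonneg (hw0 b) (sq_nonneg _)
  refine hsum.trans ?_
  have h8 := Real.add_one_le_exp (3 * s ^ 2 * (∑ b, w i b * ‖z i b‖ ^ 2) / lam ^ 2)
  refine le_trans ?_ h8
  have h9 : (∑ b, w i b * ‖z i b‖ ^ 2) * (5 / 2 * s ^ 2 / lam ^ 2)
      = 5 / 2 * ((∑ b, w i b * ‖z i b‖ ^ 2) * (s ^ 2 / lam ^ 2)) := by ring
  have h10 : 3 * s ^ 2 * (∑ b, w i b * ‖z i b‖ ^ 2) / lam ^ 2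
      = 3 * ((∑ b, w i b * ‖z i b‖ ^ 2) * (s ^ 2 / lam ^ 2)) := by ring
  rw [h9, h10]
  have : 0 ≤ (∑ b, w i b * ‖z i b‖ ^ 2) * (s ^ 2 / lam ^ 2) := by positivity
  linarith

/-- **Moments of elementary symmetric polynomials** (all pins, truncation built in). -/
theorem em_bound (H : Ref w μ) {ok' : Finset ι → Prop} {lam gL a δ : ℝ} (hδ : 0 < δ)
    (hlam : 0 < lam) (hlam1 : lam ≤ 1) (hE : EIp w μ ok' lam gL a δ) {Q : Finset ι} (hQ : ok' Q)
    (x : ∀ i, V i) {U : Finset ι} (hU : Disjoint U Q) (m : ℕ) (z : ∀ i, V i → ℂ)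
    (hz : ∀ i ∈ U, ∑ b, (w i b : ℂ) * z i b = 0) {b0 s V2 w0 : ℝ}
    (hb : ∀ i ∈ U, ∀ b, ‖z i b‖ ≤ b0) (hb0 : 0 ≤ b0) (hs : 0 ≤ s) (hsb : s * b0 ≤ lam / 2)
    (hV : ∑ i ∈ U, ∑ b, w i b * ‖z i b‖ ^ 2 ≤ V2)
    (hM : ((U.card + m + 1 : ℕ) : ℝ) * (U.card : ℝ) ^ m ≤ 1 / δ)
    (hw0 : 0 < w0) (hww : ∀ i ∈ Q, ∀ b, w i b = 0 ∨ w0 ≤ w i b)
    (hsm : δ * (U.card : ℝ) ^ m ≤ w0 ^ Q.card) (hpos : 0 ≤ gL * Q.card + a) :
    s ^ m * (gdw w μ Q x * ce μ Q (fun y => ‖em U m z y‖) x)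
      ≤ Real.exp (gL * Q.card + a + 3 * s ^ 2 * V2 / lam) := by
  obtain ⟨M, hMdef⟩ : ∃ M, M = U.card + m + 1 := ⟨_, rfl⟩
  obtain ⟨T, hT⟩ : ∃ T, T = (U.card : ℝ) * b0 := ⟨_, rfl⟩
  have hTy : ∀ y : ∀ i, V i, ∑ i ∈ U, ‖z i (y i)‖ ≤ T := by
    intro y
    calc ∑ i ∈ U, ‖z i (y i)‖ ≤ ∑ i ∈ U, b0 := sum_le_sum fun i hi => hb i hi _
      _ = T := by rw [sum_const, nsmul_eq_mul, hT]
  have hT0 : 0 ≤ T := by rw [hT]; positivity
  have hsT : s * T ≤ U.card := by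
    rw [hT]
    calc s * ((U.card : ℝ) * b0) = (U.card : ℝ) * (s * b0) := by ring
      _ ≤ (U.card : ℝ) * 1 := by gcongr; linarith
      _ = _ := mul_one _
  have hsTm : (s * T) ^ m ≤ (U.card : ℝ) ^ m := pow_le_pow_left₀ (mul_nonneg hs hT0) hsT m
  have hV0 : 0 ≤ V2 := le_trans (sum_nonneg fun i _ => sum_nonneg fun b _ =>
    mul_nonneg (H.w_nonneg i b) (sq_nonneg _)) hV
  have hr0 : 0 ≤ 3 * s ^ 2 * V2 / lam := by positivity
  have hone : (1 : ℝ) ≤ Real.exp (gL * Q.card + a + 3 * s ^ 2 * V2 / lam) := by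
    rw [← Real.exp_zero]
    exact Real.exp_le_exp.mpr (by linarith)
  have hm0 := marg_nonneg H.prob Q x
  rcases lt_or_ge (marg μ Q x) δ with hsmall | hbig
  · -- small pins
    refine le_trans ?_ hone
    rcases hm0.eq_or_lt with h0 | h0
    · have : gdw w μ Q x = 0 := by unfold gdw; rw [← h0, zero_div]
      rw [this]; simp
    have hprod := prod_w_pos_of_marg H.prob H.w_nonneg H.ac h0
    have hw : w0 ^ Q.card ≤ ∏ i ∈ Q, w i (x i) := by
      rw [← prod_const]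
      refine prod_le_prod (fun i _ => hw0.le) fun i hi => ?_
      rcases hww i hi (x i) with h | h
      · exact absurd (prod_eq_zero hi h) hprod.ne'
      · exact h
    have hce : ce μ Q (fun y => ‖em U m z y‖) x ≤ T ^ m := by
      calc ce μ Q (fun y => ‖em U m z y‖) x ≤ ce μ Q (fun _ => T ^ m * 1) x :=
            ce_mono H.prob Q x fun y _ _ => by
              rw [mul_one]; exact norm_em_le_pow U m z y (hTy y)
        _ = T ^ m := by rw [ce_smul, ce_one h0, mul_one]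
    have hg : gdw w μ Q x ≤ δ / w0 ^ Q.card := by
      unfold gdw
      exact div_le_div₀ hδ.le hsmall.le (pow_pos hw0 _) hw
    have hg0 : 0 ≤ gdw w μ Q x := H.famT.g_nonneg Q x
    have hc0 : 0 ≤ ce μ Q (fun y => ‖em U m z y‖) x :=
      ce_nonneg H.prob Q x fun y => norm_nonneg _
    calc s ^ m * (gdw w μ Q x * ce μ Q (fun y => ‖em U m z y‖) x)
        ≤ s ^ m * (δ / w0 ^ Q.card * T ^ m) := by
          refine mul_le_mul_of_nonneg_left (mul_le_mul hg hce hc0 ?_) (pow_nonneg hs m)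
          exact div_nonneg hδ.le (pow_pos hw0 _).le
      _ = δ * (s * T) ^ m / w0 ^ Q.card := by rw [mul_pow]; ring
      _ ≤ δ * (U.card : ℝ) ^ m / w0 ^ Q.card :=
          div_le_div_of_nonneg_right (mul_le_mul_of_nonneg_left hsTm hδ.le) (pow_pos hw0 _).le
      _ ≤ 1 := by rw [div_le_one (pow_pos hw0 _)]; exact hsm
  · -- main case
    have hMpos : 0 < M := by omega
    have hMR : (0 : ℝ) < M := by exact_mod_cast hMpos
    have hω := Complex.isPrimitiveRoot_exp M hMpos.ne'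
    obtain ⟨ω, hωd⟩ : ∃ ω, ω = Complex.exp (2 * Real.pi * Complex.I / M) := ⟨_, rfl⟩
    rw [← hωd] at hω
    obtain ⟨K, hKd⟩ : ∃ K, K = Real.log (1 / δ) := ⟨_, rfl⟩
    have hKe : Real.exp K = 1 / δ := by rw [hKd]; exact Real.exp_log (by positivity)
    have hKM : (M : ℝ) * (s * T) ^ m ≤ Real.exp K := by
      rw [hKe]
      refine le_trans (mul_le_mul_of_nonneg_left hsTm hMR.le) ?_
      rw [hMdef]; exact hM
    have hpt := fun y => em_pt U m M z y hω (by omega) (by omega) hs (hTy y) hKM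
    have hA : ∀ t, ∀ i ∈ U, ∑ b, w i b * Real.exp (ph z ((s : ℂ) * ω ^ t) i b / lam)
        ≤ Real.exp (3 * s ^ 2 * (∑ b, w i b * ‖z i b‖ ^ 2) / lam ^ 2) := by
      intro t i hi
      refine site_exp z i (H.w_nonneg i) (H.w_sum i) (hz i hi) (hb i hi) hs hlam hlam1 hsb ?_
      rw [norm_mul, norm_pow, hω.norm'_eq_one hMpos.ne', one_pow, mul_one,
        Complex.norm_of_nonneg hs]
    have hG : ∀ t, gdw w μ Q x * ce μ Q (fun y =>
        Real.exp (min (∑ i ∈ U, ph z ((s : ℂ) * ω ^ t) i (y i)) K)) x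
        ≤ Real.exp (gL * Q.card + a + 3 * s ^ 2 * V2 / lam) := by
      intro t
      refine (gibbs_trunc H hδ hlam hE hQ hbig hU (ph z ((s : ℂ) * ω ^ t))
        (fun i => 3 * s ^ 2 * (∑ b, w i b * ‖z i b‖ ^ 2) / lam ^ 2) ?_ (hA t) hKe.le).trans ?_
      · intro i _
        have : 0 ≤ ∑ b, w i b * ‖z i b‖ ^ 2 :=
          sum_nonneg fun b _ => mul_nonneg (H.w_nonneg i b) (sq_nonneg _)
        positivity
      · refine Real.exp_le_exp.mpr ?_
        have e1 : lam * ∑ i ∈ U, 3 * s ^ 2 * (∑ b, w i b * ‖z i b‖ ^ 2) / lam ^ 2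
            = 3 * s ^ 2 * (∑ i ∈ U, ∑ b, w i b * ‖z i b‖ ^ 2) / lam := by
          rw [← sum_div, ← mul_sum]
          field_simp
        rw [e1]
        gcongr
    have hg0 : 0 ≤ gdw w μ Q x := H.famT.g_nonneg Q x
    have h1 : (M : ℝ) * (s ^ m * (gdw w μ Q x * ce μ Q (fun y => ‖em U m z y‖) x))
        ≤ ∑ t ∈ range M, gdw w μ Q x * ce μ Q (fun y =>
          Real.exp (min (∑ i ∈ U, ph z ((s : ℂ) * ω ^ t) i (y i)) K)) x := by
      rw [← mul_sum, ← ce_finset_sum]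
      have e2 : (M : ℝ) * (s ^ m * (gdw w μ Q x * ce μ Q (fun y => ‖em U m z y‖) x))
          = gdw w μ Q x * ce μ Q (fun y => (M : ℝ) * (s ^ m * ‖em U m z y‖)) x := by
        rw [ce_smul, ce_smul]; ring
      rw [e2]
      exact mul_le_mul_of_nonneg_left (ce_mono H.prob Q x fun y _ _ => hpt y) hg0
    have h2 : ∑ t ∈ range M, gdw w μ Q x * ce μ Q (fun y =>
          Real.exp (min (∑ i ∈ U, ph z ((s : ℂ) * ω ^ t) i (y i)) K)) x
        ≤ (M : ℝ) * Real.exp (gL * Q.card + a + 3 * s ^ 2 * V2 / lam) := by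
      refine (sum_le_sum fun t _ => hG t).trans ?_
      rw [sum_const, card_range, nsmul_eq_mul]
    exact le_of_mul_le_mul_left (h1.trans h2) hMR

end

end Vale.Agent.P042.H438
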