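import Vale.Agent.P042.H482.Pins

/-! Truncated Gibbs variational inequality from the energy increment inequality with pins. -/

namespace Vale.Agent.P042.H438

open Finset Vale.Agent.P042.H779 Vale.Agent.P042.H779.Ab Vale.Agent.P042.H482

set_option linter.unusedSectionVars false

section
variable {ι : Type*} [Fintype ι] [DecidableEq ι] {V : ι → Type*} [∀ i, Fintype (V i)]
  [∀ i, DecidableEq (V i)] {w : ∀ i, V i → ℝ} {μ : (∀ i, V i) → ℝ}

/-- `t u ≤ t log t - t + e^u` -/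
lemma young {t : ℝ} (ht : 0 ≤ t) (u : ℝ) : t * u ≤ phi t - 1 + Real.exp u := by
  unfold phi
  rcases ht.eq_or_lt with h | h
  · rw [← h]; simp [(Real.exp_pos u).le]
  have h1 := Real.add_one_le_exp (u - Real.log t)
  rw [Real.exp_sub, Real.exp_log h, le_div_iff₀ h] at h1
  nlinarith

lemma ce_add (P : Finset ι) (f g : (∀ i, V i) → ℝ) (x : ∀ i, V i) :
    ce μ P (fun y => f y + g y) x = ce μ P f x + ce μ P g x := by
  unfold ce
  rw [← add_div, ← sum_add_distrib]
  congr 1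
  refine sum_congr rfl fun y _ => ?_
  split_ifs <;> ring

lemma ce_smul (P : Finset ι) (c : ℝ) (f : (∀ i, V i) → ℝ) (x : ∀ i, V i) :
    ce μ P (fun y => c * f y) x = c * ce μ P f x := by
  unfold ce
  rw [mul_div_assoc', mul_sum]
  congr 1
  refine sum_congr rfl fun y _ => ?_
  split_ifs <;> ring

lemma ce_finset_sum {κ : Type*} (s : Finset κ) (P : Finset ι) (f : κ → (∀ i, V i) → ℝ)
    (x : ∀ i, V i) : ce μ P (fun y => ∑ k ∈ s, f k y) x = ∑ k ∈ s, ce μ P (f k) x := by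
  classical
  induction s using Finset.induction_on with
  | empty => simp [ce]
  | insert k s hk ih =>
    simp only [sum_insert hk]
    rw [ce_add, ih]

lemma ce_mono (h : IsProb μ) (P : Finset ι) {f g : (∀ i, V i) → ℝ} (x : ∀ i, V i)
    (hfg : ∀ y, 0 < μ y → (∀ i ∈ P, y i = x i) → f y ≤ g y) :
    ce μ P f x ≤ ce μ P g x := by
  unfold ce
  refine div_le_div_of_nonneg_right (sum_le_sum fun y _ => ?_) (marg_nonneg h P x)
  split_ifs with hy
  · rcases (h.nonneg y).eq_or_lt with h0 | h0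
    · rw [← h0]; simp
    · exact mul_le_mul_of_nonneg_left (hfg y h0 hy) h0.le
  · exact le_rfl

lemma ce_nonneg (h : IsProb μ) (P : Finset ι) {f : (∀ i, V i) → ℝ} (x : ∀ i, V i)
    (hf : ∀ y, 0 ≤ f y) : 0 ≤ ce μ P f x := by
  unfold ce
  refine div_nonneg (sum_nonneg fun y _ => ?_) (marg_nonneg h P x)
  split_ifs
  · exact mul_nonneg (h.nonneg y) (hf y)
  · exact le_rfl

/-- expectation of a one-site function under `f μ^x` -/
lemma ce_site (Q : Finset ι) (f : (∀ i, V i) → ℝ) (i : ι) (g : V i → ℝ) (x : ∀ i, V i) :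
    ce μ Q (fun y => f y * g (y i)) x = ∑ b, mi μ Q f i x b * g b := by
  unfold mi
  have h1 : ∀ b : V i, ce μ Q (fun y => if y i = b then f y else 0) x * g b
      = ce μ Q (fun y => g b * (if y i = b then f y else 0)) x := by
    intro b
    rw [ce_smul]; ring
  rw [sum_congr rfl fun b _ => h1 b, ← ce_finset_sum]
  congr 1
  funext y
  have : ∀ b : V i, g b * (if y i = b then f y else 0) = if y i = b then f y * g (y i) else 0 := by
    intro b
    by_cases hb : y i = b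
    · subst hb; simp; ring
    · simp [hb]
  rw [sum_congr rfl fun b _ => this b, sum_ite_eq, if_pos (mem_univ _)]

lemma mi_nonneg (h : IsProb μ) (Q : Finset ι) {f : (∀ i, V i) → ℝ} (hf : ∀ y, 0 ≤ f y) (i : ι)
    (x : ∀ i, V i) (b : V i) : 0 ≤ mi μ Q f i x b := by
  unfold mi
  refine ce_nonneg h Q x fun y => ?_
  split_ifs
  · exact hf y
  · exact le_rfl

lemma mi_sum (Q : Finset ι) (f : (∀ i, V i) → ℝ) (i : ι) (x : ∀ i, V i) :
    ∑ b, mi μ Q f i x b = ce μ Q f x := by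
  have := ce_site (μ := μ) Q f i (fun _ => 1) x
  simp only [mul_one] at this
  exact this.symm

lemma mu_zero_of_w (H : Ref w μ) {i : ι} {y : ∀ i, V i} (hw : w i (y i) = 0) : μ y = 0 := by
  have h1 := H.ac i (y i) hw
  unfold m1 at h1
  have h2 := (sum_eq_zero_iff_of_nonneg (fun z _ => by
    split_ifs
    · exact H.prob.nonneg z
    · exact le_rfl)).mp h1 y (mem_univ y)
  simpa using h2

lemma mi_zero (H : Ref w μ) (Q : Finset ι) (f : (∀ i, V i) → ℝ) (i : ι) (x : ∀ i, V i) {b : V i}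
    (hb : w i b = 0) : mi μ Q f i x b = 0 := by
  unfold mi ce
  rw [div_eq_zero_iff]
  left
  refine sum_eq_zero fun y _ => ?_
  by_cases h1 : ∀ j ∈ Q, y j = x j
  · rw [if_pos h1]
    by_cases h2 : y i = b
    · rw [mu_zero_of_w H (i := i) (y := y) (by rw [h2]; exact hb), zero_mul]
    · beta_reduce
      rw [if_neg h2, mul_zero]
  · rw [if_neg h1]

/-- Donsker-Varadhan on one site. -/
lemma dv_site (H : Ref w μ) (Q : Finset ι) {f : (∀ i, V i) → ℝ} (hf : ∀ y, 0 ≤ f y) (i : ι)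
    (x : ∀ i, V i) (h1 : ce μ Q f x = 1) {lam : ℝ} (hlam : 0 < lam) (φ : V i → ℝ) {A : ℝ}
    (hA : ∑ b, w i b * Real.exp (φ b / lam) ≤ Real.exp A) :
    ∑ b, mi μ Q f i x b * φ b
      ≤ lam * (∑ b, w i b * phi (mi μ Q f i x b / w i b)) + lam * A := by
  have hpt : ∀ b, mi μ Q f i x b * (φ b / lam - A)
      ≤ w i b * phi (mi μ Q f i x b / w i b) - w i b
        + w i b * Real.exp (φ b / lam) * Real.exp (-A) := by
    intro b
    rcases (H.w_nonneg i b).eq_or_lt with hw | hw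
    · rw [mi_zero H Q f i x hw.symm, ← hw]; simp
    have h2 := young (t := mi μ Q f i x b / w i b)
      (div_nonneg (mi_nonneg H.prob Q hf i x b) hw.le) (φ b / lam - A)
    have h3 := mul_le_mul_of_nonneg_left h2 hw.le
    have h4 : w i b * (mi μ Q f i x b / w i b * (φ b / lam - A))
        = mi μ Q f i x b * (φ b / lam - A) := by field_simp
    rw [h4] at h3
    have h5 : Real.exp (φ b / lam - A) = Real.exp (φ b / lam) * Real.exp (-A) := by
      rw [← Real.exp_add]; congr 1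
    rw [h5] at h3
    linarith
  have hs := sum_le_sum fun b (_ : b ∈ (univ : Finset (V i))) => hpt b
  rw [sum_add_distrib, sum_sub_distrib, ← sum_mul, H.w_sum] at hs
  have h6 : (∑ b, w i b * Real.exp (φ b / lam)) * Real.exp (-A) ≤ 1 := by
    calc _ ≤ Real.exp A * Real.exp (-A) :=
          mul_le_mul_of_nonneg_right hA (Real.exp_pos _).le
      _ = 1 := by rw [← Real.exp_add]; simp
  have h7 : ∑ b, mi μ Q f i x b * (φ b / lam - A)
      = (∑ b, mi μ Q f i x b * φ b) / lam - A := by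
    have : ∀ b, mi μ Q f i x b * (φ b / lam - A)
        = mi μ Q f i x b * φ b / lam - mi μ Q f i x b * A := fun b => by ring
    rw [sum_congr rfl fun b _ => this b, sum_sub_distrib, ← sum_div, ← sum_mul, mi_sum, h1, one_mul]
  rw [h7] at hs
  have h8 : (∑ b, mi μ Q f i x b * φ b) / lam
      ≤ (∑ b, w i b * phi (mi μ Q f i x b / w i b)) + A := by linarith
  rw [div_le_iff₀ hlam] at h8
  nlinarith

/-- **Truncated exponential moments of one-body sums from `EIp`.** -/
theorem gibbs_trunc (H : Ref w μ) {ok' : Finset ι → Prop} {lam gL a δ : ℝ} (hδ : 0 < δ)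
    (hlam : 0 < lam) (hE : EIp w μ ok' lam gL a δ) {Q : Finset ι} (hQ : ok' Q) {x : ∀ i, V i}
    (hx : δ ≤ marg μ Q x) {U : Finset ι} (hU : Disjoint U Q) (φ : ∀ i, V i → ℝ) (A : ι → ℝ)
    (hA0 : ∀ i ∈ U, 0 ≤ A i)
    (hA : ∀ i ∈ U, ∑ b, w i b * Real.exp (φ i b / lam) ≤ Real.exp (A i))
    {K : ℝ} (hK : Real.exp K ≤ 1 / δ) :
    gdw w μ Q x * ce μ Q (fun y => Real.exp (min (∑ i ∈ U, φ i (y i)) K)) x
      ≤ Real.exp (gL * Q.card + a + lam * ∑ i ∈ U, A i) := by
  have hm : 0 < marg μ Q x := lt_of_lt_of_le hδ hx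
  have hg : 0 < gdw w μ Q x := (gdw_pos_iff H.prob H.w_nonneg H.ac Q x).mpr hm
  have hUQ : U ⊆ univ \ Q := fun i hi =>
    mem_sdiff.mpr ⟨mem_univ i, fun hc => (disjoint_left.mp hU hi) hc⟩
  have hδ1 : (1 : ℝ) ≤ 1 / δ := by
    rw [le_div_iff₀ hδ, one_mul]
    exact hx.trans (marg_le_one H.prob Q x)
  have hsumA : 0 ≤ lam * ∑ i ∈ U, A i := mul_nonneg hlam.le (sum_nonneg hA0)
  obtain ⟨Z, hZ⟩ : ∃ Z, Z = ce μ Q (fun y => Real.exp (min (∑ i ∈ U, φ i (y i)) K)) x := ⟨_, rfl⟩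
  rw [← hZ]
  have hphi0 : ∀ (f : (∀ i, V i) → ℝ), (∀ y, 0 ≤ f y) → ∀ i,
      0 ≤ ∑ b, w i b * phi (mi μ Q f i x b / w i b) := fun f hf i =>
    sum_nonneg fun b _ => mul_nonneg (H.w_nonneg i b)
      (phi_nonneg (div_nonneg (mi_nonneg H.prob Q hf i x b) (H.w_nonneg i b)))
  rcases lt_or_ge Z 1 with hZ1 | hZ1
  · -- use `f = 1`
    have h2 := hE Q hQ x hx (fun _ => 1) (fun _ => zero_le_one) (fun _ => hδ1) (ce_one hm)
    have h3 : ce μ Q (fun _ => (1 : ℝ) * Real.log 1) x = 0 := by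
      unfold ce
      simp
    rw [h3, zero_add] at h2
    have h4 : 0 ≤ lam * ∑ i ∈ univ \ Q, ∑ b, w i b * phi (mi μ Q (fun _ => 1) i x b / w i b) :=
      mul_nonneg hlam.le (sum_nonneg fun i _ => hphi0 _ (fun _ => zero_le_one) i)
    have h5 : Real.log (gdw w μ Q x) ≤ gL * Q.card + a + lam * ∑ i ∈ U, A i := by linarith
    have h6 : gdw w μ Q x ≤ Real.exp (gL * Q.card + a + lam * ∑ i ∈ U, A i) := by
      rw [← Real.exp_log hg]
      exact Real.exp_le_exp.mpr h5
    calc gdw w μ Q x * Z ≤ gdw w μ Q x * 1 := mul_le_mul_of_nonneg_left hZ1.le hg.le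
      _ ≤ _ := by rw [mul_one]; exact h6
  · have hZ0 : 0 < Z := by linarith
    obtain ⟨F, hF⟩ : ∃ F : (∀ i, V i) → ℝ, F = fun y => min (∑ i ∈ U, φ i (y i)) K := ⟨_, rfl⟩
    have hFy : ∀ y, F y = min (∑ i ∈ U, φ i (y i)) K := fun y => by rw [hF]
    obtain ⟨f, hf⟩ : ∃ f : (∀ i, V i) → ℝ, f = fun y => Z⁻¹ * Real.exp (F y) := ⟨_, rfl⟩
    have hfy : ∀ y, f y = Z⁻¹ * Real.exp (F y) := fun y => by rw [hf]
    have hf0 : ∀ y, 0 ≤ f y := fun y => by
      rw [hfy]; exact mul_nonneg (inv_nonneg.mpr hZ0.le) (Real.exp_pos _).le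
    have hf1 : ∀ y, f y ≤ 1 / δ := fun y => by
      rw [hfy]
      calc Z⁻¹ * Real.exp (F y) ≤ 1 * Real.exp K := by
            refine mul_le_mul (inv_le_one_of_one_le₀ hZ1) ?_ (Real.exp_pos _).le zero_le_one
            rw [hFy]
            exact Real.exp_le_exp.mpr (min_le_right _ _)
        _ ≤ 1 / δ := by rw [one_mul]; exact hK
    have hfce : ce μ Q f x = 1 := by
      rw [hf, ce_smul]
      have : ce μ Q (fun y => Real.exp (F y)) x = Z := by rw [hZ, hF]
      rw [this]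
      exact inv_mul_cancel₀ hZ0.ne'
    have h2 := hE Q hQ x hx f hf0 hf1 hfce
    -- entropy of `f`
    have h3 : ce μ Q (fun y => f y * Real.log (f y)) x
        ≤ (∑ i ∈ U, ∑ b, mi μ Q f i x b * φ i b) - Real.log Z := by
      have e1 : ∀ y, f y * Real.log (f y) = f y * F y + (-Real.log Z) * f y := by
        intro y
        have : Real.log (f y) = -Real.log Z + F y := by
          rw [hfy, Real.log_mul (inv_ne_zero hZ0.ne') (Real.exp_pos _).ne', Real.log_inv,
            Real.log_exp]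
        rw [this]; ring
      have e2 : ce μ Q (fun y => f y * Real.log (f y)) x
          = ce μ Q (fun y => f y * F y) x - Real.log Z := by
        simp only [e1]
        rw [ce_add, ce_smul, hfce]; ring
      rw [e2]
      have e3 : ce μ Q (fun y => f y * F y) x
          ≤ ce μ Q (fun y => ∑ i ∈ U, f y * φ i (y i)) x := by
        refine ce_mono H.prob Q x fun y _ _ => ?_
        rw [← mul_sum]
        exact mul_le_mul_of_nonneg_left (by rw [hFy]; exact min_le_left _ _) (hf0 y)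
      rw [ce_finset_sum] at e3
      have e4 : ∑ i ∈ U, ce μ Q (fun y => f y * φ i (y i)) x
          = ∑ i ∈ U, ∑ b, mi μ Q f i x b * φ i b :=
        sum_congr rfl fun i _ => ce_site Q f i (φ i) x
      rw [e4] at e3
      linarith
    have h4 : ∑ i ∈ U, ∑ b, mi μ Q f i x b * φ i b
        ≤ lam * (∑ i ∈ U, ∑ b, w i b * phi (mi μ Q f i x b / w i b)) + lam * ∑ i ∈ U, A i := by
      rw [mul_sum, mul_sum, ← sum_add_distrib]
      exact sum_le_sum fun i hi => dv_site H Q hf0 i x hfce hlam (φ i) (hA i hi)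
    have h5 : ∑ i ∈ U, ∑ b, w i b * phi (mi μ Q f i x b / w i b)
        ≤ ∑ i ∈ univ \ Q, ∑ b, w i b * phi (mi μ Q f i x b / w i b) :=
      sum_le_sum_of_subset_of_nonneg hUQ fun i _ _ => hphi0 f hf0 i
    have h6 := mul_le_mul_of_nonneg_left h5 hlam.le
    have h7 : Real.log (gdw w μ Q x) + Real.log Z ≤ gL * Q.card + a + lam * ∑ i ∈ U, A i := by
      linarith
    rw [← Real.log_mul hg.ne' hZ0.ne'] at h7
    rw [← Real.exp_log (mul_pos hg hZ0)]
    exact Real.exp_le_exp.mpr h7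

end

end Vale.Agent.P042.H438
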